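import Vale.Agent.P040.H906.Sel2

/-! Selector lemma for meanders, part 3: uniqueness of the outcome. -/

set_option linter.unusedVariables false
set_option linter.unusedSectionVars false

namespace Vale.Agent.P040.H906

variable {W : Type*} [LinearOrder W]

theorem splice_comm {p q r s y : W} {G : W → W} (hp : G (G p) = p) (hq : G (G q) = q)
    (hr : G (G r) = r) (hs : G (G s) = s) (hy : G (G y) = y)
    (h1 : p ≠ q) (h2 : p ≠ r) (h3 : p ≠ s) (h4 : q ≠ r) (h5 : q ≠ s) (h6 : r ≠ s)
    (y1 : y ≠ p) (y2 : y ≠ q) (y3 : y ≠ r) (y4 : y ≠ s)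
    (np : G p ≠ p) (nq : G q ≠ q) (nr : G r ≠ r) (ns : G s ≠ s) (ny : G y ≠ y)
    (npq : G p ≠ q) (nrs : G r ≠ s)
    {G1 G2 G12 G21 : W → W}
    (e1 : ∀ z, G1 z = if G z = p then G q else if G z = q then G p else G z)
    (e2 : ∀ z, G2 z = if G z = r then G s else if G z = s then G r else G z)
    (e12 : G12 y = if G1 y = r then G1 s else if G1 y = s then G1 r else G1 y)
    (e21 : G21 y = if G2 y = p then G2 q else if G2 y = q then G2 p else G2 y) :
    G12 y = G21 y := by
  have a1 := e1 y
  have a2 := e1 s
  have a3 := e1 r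
  have b1 := e2 y
  have b2 := e2 q
  have b3 := e2 p
  clear e1 e2
  grind (splits := 30)

namespace Cfg

theorem del_f_of_ne {c : Cfg W} {b b' : Bool} {x y : W} (h1 : c.f b' y ≠ x)
    (h2 : c.f b' y ≠ c.f b x) : (c.del b x).f b' y = c.f b' y := by
  rcases bool_cases b b' with rfl | rfl
  · exact del_same _ _ _ _
  · rw [del_other, if_neg h1, if_neg h2]

theorem commute_iso {c : Cfg W} (h : c.Good) (hc : 2 < c.S.card) {b b' : Bool} {x x' : W}
    (hl : c.Leaf b x) (hl' : c.Leaf b' x') (d1 : x' ≠ x) (d2 : x' ≠ c.f b x)
    (d3 : c.f b' x' ≠ x) (d4 : c.f b' x' ≠ c.f b x) :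
    Iso id ((c.del b x).del b' x') ((c.del b' x').del b x) := by
  have hx := hl.1
  have hx' := hl'.1
  have hq := h.mem b x hx
  have hs := h.mem b' x' hx'
  have e1 : (c.del b x).f b' x' = c.f b' x' := del_f_of_ne d3 d4
  have e2 : (c.del b' x').f b x = c.f b x := by
    apply del_f_of_ne
    · exact d2.symm
    · exact d4.symm
  have hS : ((c.del b x).del b' x').S = ((c.del b' x').del b x).S := by
    ext y
    simp only [mem_del, e1, e2]
    tauto
  refine ⟨?_, ?_, ?_, ?_, ?_⟩
  · intro y hy; rw [id]; rwa [← hS]
  · intro y hy; exact ⟨y, by rwa [hS], rfl⟩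
  · intro y hy z hz h1; exact h1
  · intro β y hy
    simp only [mem_del, e1] at hy
    obtain ⟨y4, y3, y2, y1, hyS⟩ := hy
    simp only [id]
    by_cases hbb : b' = b
    · subst hbb
      rcases bool_cases b' β with rfl | rfl
      · rw [del_same, del_same, del_same, del_same]
      · refine splice_comm (p := x) (q := c.f b' x) (r := x') (s := c.f b' x')
          (G := c.f (!b')) (G1 := (c.del b' x).f (!b')) (G2 := (c.del b' x').f (!b'))
          (h.inv _ _ hx) (h.inv _ _ hq) (h.inv _ _ hx') (h.inv _ _ hs) (h.inv _ _ hyS)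
          (h.ne b' x hx).symm d1.symm d3.symm d2.symm d4.symm (h.ne b' x' hx').symm y1 y2 y3 y4
          (h.ne _ _ hx) (h.ne _ _ hq) (h.ne _ _ hx') (h.ne _ _ hs) (h.ne _ _ hyS)
          (h.ne_other hc b' hx) (h.ne_other hc b' hx') (fun z => del_other _ _ _ _)
          (fun z => del_other _ _ _ _) ?_ ?_
        · rw [del_other, e1]
        · rw [del_other, e2]
    · have hb' : b' = !b := by rcases bool_cases b b' with h1 | h1; exact absurd h1 hbb; exact h1
      subst hb'
      rcases bool_cases b β with rfl | rfl
      · -- page `b`: spliced only at `x', s`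
        have k1 : ((c.del β x).del (!β) x').f β y = if c.f β y = x' then c.f β (c.f (!β) x') else
            if c.f β y = c.f (!β) x' then c.f β x' else c.f β y := by
          have := del_other (c.del β x) (!β) x' y
          rw [Bool.not_not, e1] at this
          rw [this, del_same, del_same, del_same]
        have k2 : ((c.del (!β) x').del β x).f β y = (c.del (!β) x').f β y := del_same _ _ _ _
        have k3 := del_other c (!β) x' y
        rw [Bool.not_not] at k3
        rw [k1, k2, k3]
      · have k1 : ((c.del b x).del (!b) x').f (!b) y = (c.del b x).f (!b) y := del_same _ _ _ _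
        have k2 := del_other (c.del (!b) x') b x y
        rw [del_same, e2, del_same, del_same] at k2
        rw [k1, k2, del_other]
  · intro y hy z hz w hw; rfl

/-- two maximal leaves sharing a point: the two deletions give isomorphic configurations -/
theorem share_iso {c : Cfg W} (h : c.Good) (hc : 2 < c.S.card) {b : Bool} {x : W}
    (hl : c.Leaf b x) (hl' : c.Leaf (!b) (c.f b x)) :
    Iso (fun z => if z = c.f (!b) (c.f b x) then x else z) (c.del b x)
      (c.del (!b) (c.f b x)) := by
  have hx := hl.1
  have hq := hl'.1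
  have hs := h.mem (!b) _ hq
  have hP := h.mem (!b) x hx
  have hpq := h.ne b x hx
  have hsq := h.ne (!b) _ hq
  have hPp := h.ne (!b) x hx
  have hPq := h.ne_other hc b hx
  have hinvP := h.inv (!b) x hx
  have hinvs := h.inv (!b) _ hq
  have hsp : c.f (!b) (c.f b x) ≠ x := by
    intro he; apply hPq; rw [← he, hinvs, he]
  have hPs : c.f (!b) x ≠ c.f (!b) (c.f b x) := by
    intro he; exact hpq (h.inj hx hq he).symm
  have hl2 := hl.2
  have hl3 := hl'.2
  refine ⟨?_, ?_, ?_, ?_, ?_⟩
  · intro y hy
    rw [mem_del] at hy ⊢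
    try simp only
    split_ifs with h1
    · exact ⟨hsp.symm, hpq.symm, hx⟩
    · exact ⟨h1, hy.1, hy.2.2⟩
  · intro y hy
    rw [mem_del] at hy
    by_cases hyx : y = x
    · refine ⟨c.f (!b) (c.f b x), ?_, by simp [hyx]⟩
      rw [mem_del]; exact ⟨hsq, hsp, hs⟩
    · exact ⟨y, by rw [mem_del]; exact ⟨hy.2.1, hyx, hy.2.2⟩, by simp [hy.1]⟩
  · intro y hy z hz
    rw [mem_del] at hy hz
    try simp only
    grind (splits := 20)
  · intro β y hy
    rw [mem_del] at hy
    obtain ⟨y1, y2, hyS⟩ := hy
    try simp only
    rcases bool_cases b β with rfl | rfl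
    · have k := del_other c (!β) (c.f β x) (if y = c.f (!β) (c.f β x) then x else y)
      rw [Bool.not_not] at k
      rw [del_same, k]
      have i1 := h.inv β y hyS
      have i2 := h.inv β x hx
      have i3 := h.inv β _ hs
      have n1 := h.ne β y hyS
      have n3 := h.ne β _ hs
      have j1 : c.f β y = c.f β x → y = x := h.inj hyS hx
      grind (splits := 20)
    · rw [del_same, del_other]
      have i1 := h.inv (!b) y hyS
      have n1 := h.ne (!b) y hyS
      grind (splits := 20)
  · intro y hy z hz w hw
    rw [mem_del] at hy hz hw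
    have a1 := hl2 y hy.2.2
    have a2 := hl2 z hz.2.2
    have a3 := hl2 w hw.2.2
    have a4 := hl3 y hy.2.2
    have a5 := hl3 z hz.2.2
    have a6 := hl3 w hw.2.2
    have a7 := hl2 _ hs
    have a8 := hl3 _ hx
    obtain ⟨y1, y2, -⟩ := hy
    obtain ⟨z1, z2, -⟩ := hz
    obtain ⟨w1, w2, -⟩ := hw
    try simp only
    generalize c.f (!b) (c.f b x) = s at *
    generalize c.f b x = q at *
    clear hl hl' hx hq hs hP hPp hPq hinvP hPs hl2 hl3 hinvs
    by_cases hy : y = s <;> by_cases hz : z = s <;> by_cases hw : w = s <;>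
      simp only [hy, hz, hw, if_true, if_false] <;> unfold Cyc at * <;> grind

end Cfg

theorem sg_cancel {b : Bool} {r t : ℝ} (h : sg b * (r - t) = 0) : r = t := by
  have := sg_sq b
  have h2 : sg b * (sg b * (r - t)) = 0 := by rw [h, mul_zero]
  rw [← mul_assoc, this, one_mul] at h2
  linarith

theorem four_order {x q x' s : W} (l1 : ¬ Cyc x x' q) (l2 : ¬ Cyc x s q) (l3 : ¬ Cyc x' x s)
    (l4 : ¬ Cyc x' q s) (n1 : q ≠ x) (n2 : s ≠ x') (d1 : x' ≠ x) (d2 : x' ≠ q) (d3 : s ≠ x)
    (d4 : s ≠ q) (h : Cyc x q x' → Cyc x s x') : False := by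
  unfold Cyc at *
  grind

theorem four_pts {E : W → ℝ} {c : Cfg W} (hg : c.Good) (hc : 2 < c.S.card) {b : Bool} {x x' : W}
    (hl : c.Leaf b x) (hl' : c.Leaf b x') (hv : c.Valid E (-(c.dl E b x)))
    (hMM : c.dl E b x = c.dl E b x')
    (hS : ({x, c.f b x, x', c.f b x'} : Finset W) = c.S) (d1 : x' ≠ x) (d2 : x' ≠ c.f b x)
    (d3 : c.f b x' ≠ x) (d4 : c.f b x' ≠ c.f b x) :
    E x' = E x ∧ E (c.f b x') = E (c.f b x) ∧ c.f (!b) x = c.f b x' := by
  have hx := hl.1
  have hx' := hl'.1
  have hq := hg.mem b x hx
  have hs := hg.mem b x' hx'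
  have hP := hg.mem (!b) x hx
  have hQ := hg.mem (!b) _ hq
  have nP := hg.ne (!b) x hx
  have nP2 := hg.ne_other hc b hx
  have iP := hg.inv (!b) x hx
  have iQ := hg.inv (!b) _ hq
  have nc1 := hg.nc (!b) x hx _ hq
  have nQ := hg.ne (!b) _ hq
  have inj1 : c.f (!b) x ≠ c.f (!b) (c.f b x) := fun he =>
    hg.ne b x hx (hg.inj hx hq he).symm
  have hP' : c.f (!b) x = x' ∨ c.f (!b) x = c.f b x' := by
    have := hP; rw [← hS] at this
    simp only [Finset.mem_insert, Finset.mem_singleton] at this
    rcases this with h | h | h | h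
    · exact absurd h nP
    · exact absurd h nP2
    · left; exact h
    · right; exact h
  have hQx : c.f (!b) (c.f b x) ≠ x := by
    intro he; rw [he] at iQ; exact nP2 iQ
  have hQ' : c.f (!b) (c.f b x) = x' ∨ c.f (!b) (c.f b x) = c.f b x' := by
    have := hQ; rw [← hS] at this
    simp only [Finset.mem_insert, Finset.mem_singleton] at this
    rcases this with h | h | h | h
    · exact absurd h hQx
    · exact absurd h nQ
    · left; exact h
    · right; exact h
  have n1 := hg.ne b x hx
  have n2 := hg.ne b x' hx'
  have hP2 : c.f (!b) x = c.f b x' := by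
    rcases hP' with h5 | h5
    · exfalso
      have h6 : c.f (!b) (c.f b x) = c.f b x' := by
        rcases hQ' with h6 | h6
        · rw [h5, h6] at inj1; exact absurd rfl inj1
        · exact h6
      rw [h5, h6] at nc1
      exact four_order (hl.2 _ hx') (hl.2 _ hs) (hl'.2 _ hx) (hl'.2 _ hq) n1 n2 d1 d2 d3 d4 nc1
    · exact h5
  have hQ2 : c.f (!b) (c.f b x) = x' := by
    rcases hQ' with h6 | h6
    · exact h6
    · rw [hP2, h6] at inj1; exact absurd rfl inj1
  have hEr : E x' = E x := by
    have v1 := hv.ge hg hq (b := !b)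
    have v2 := hv.ge hg hs (b := !b)
    have hsx : c.f (!b) (c.f b x') = x := by rw [← hP2, iP]
    unfold Cfg.dl at v1 v2 hMM
    rw [hQ2, sg_not] at v1
    rw [hsx, sg_not] at v2
    apply sg_cancel (b := b)
    nlinarith
  refine ⟨hEr, ?_, hP2⟩
  unfold Cfg.dl at hMM
  apply sg_cancel (b := b)
  rw [hEr] at hMM
  linarith

theorem exists_out_del {E : W → ℝ} {col : W → Bool} {c : Cfg W} (hg : c.Good)
    (hcol : ColOK col c) (hc : 2 < c.S.card) {b : Bool} {x : W} (hl : c.Leaf b x)
    (hv : c.Valid E (-(c.dl E b x))) : ∃ a, Out E col (c.del b x) a :=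
  exists_out _ _ rfl (Cfg.good_del hg hc hl) (hcol.del hg b hl.1) _ (valid_dl hg hc hl hv)

/-- the value at the surviving point does not depend on the choices -/
theorem out_unique {E : W → ℝ} {col : W → Bool} : ∀ (n : ℕ) (c : Cfg W), c.S.card = n → c.Good →
    ColOK col c → ∀ a a', Out E col c a → Out E col c a' → E a = E a' := by
  intro n
  induction n using Nat.strong_induction_on with
  | _ n ih =>
  intro c hn hg hcol a a' ho ho'
  cases ho with
  | base h1 h2 h3 =>
    cases ho' with
    | base h1' h2' h3' =>
      by_cases haa : a = a'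
      · rw [haa]
      · exfalso
        have hS : ({a, a'} : Finset W) = c.S := by
          apply Finset.eq_of_subset_of_card_le
          · intro y hy; simp at hy; rcases hy with rfl | rfl <;> assumption
          · rw [h1, Finset.card_pair haa]
        have hm := hg.mem true a h2
        have hn := hg.ne true a h2
        rw [← hS] at hm
        simp at hm
        rcases hm with hm | hm
        · exact hn hm
        · have := hcol true a h2
          rw [hm, h3, h3'] at this
          simp at this
    | step h1' => omega
  | @step _ b x _ hc hl hv ho =>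
  cases ho' with
  | base h1' => omega
  | @step _ b' x' _ _ hl' hv' ho' =>
  have hx := hl.1
  have hx' := hl'.1
  have hq := hg.mem b x hx
  have hs := hg.mem b' x' hx'
  have hMM : c.dl E b x = c.dl E b' x' := by
    have e1 := hv.ge hg hx' (b := b')
    have e2 := hv'.ge hg hx (b := b)
    linarith
  have hG1 := Cfg.good_del hg hc hl
  have hG2 := Cfg.good_del hg hc hl'
  have hC1 := hcol.del hg b hx
  have hC2 := hcol.del hg b' hx'
  have k1 := Cfg.card_del hg hx (b := b)
  have k2 := Cfg.card_del hg hx' (b := b')
  have hV1 := valid_dl hg hc hl hv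
  have hV2 := valid_dl hg hc hl' hv'
  -- a general consequence of the sharing situation
  have share : ∀ (b : Bool) (x a a' : W), c.Leaf b x → c.Leaf (!b) (c.f b x) →
      c.dl E b x = c.dl E (!b) (c.f b x) → Out E col (c.del b x) a →
      Out E col (c.del (!b) (c.f b x)) a' → E a = E a' := by
    intro b x a a' hl hl' he ho ho'
    have hx := hl.1
    have hq := hl'.1
    have hs := hg.mem (!b) _ hq
    have iso := Cfg.share_iso hg hc hl hl'
    have hEs : E (c.f (!b) (c.f b x)) = E x := by
      have h1 : sg b * (E (c.f b x) - E x) = sg (!b) * (E (c.f (!b) (c.f b x)) - E (c.f b x)) := he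
      rw [sg_not] at h1
      apply sg_cancel (b := b)
      linarith
    have hcs : col (c.f (!b) (c.f b x)) = col x := by
      rw [hcol _ _ hq, hcol _ _ hx]; simp
    have hG1 := Cfg.good_del hg hc hl
    have hG2 := Cfg.good_del hg hc hl'
    have hC2 := hcol.del hg (!b) hq
    have k2 := Cfg.card_del hg hq (b := !b)
    have ho2 := Iso.out (E' := E) (col' := col) ho hG1 iso (by
      intro y hy; split_ifs with h1
      · rw [h1, hEs]
      · rfl) (by
      intro y hy; split_ifs with h1
      · rw [h1, hcs]
      · rfl)
    have e1 := ih _ (by omega) _ rfl hG2 hC2 _ _ ho2 ho'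
    rw [← e1]
    split_ifs with h1
    · rw [h1, hEs]
    · rfl
  by_cases hd : x' ≠ x ∧ x' ≠ c.f b x ∧ c.f b' x' ≠ x ∧ c.f b' x' ≠ c.f b x
  · obtain ⟨d1, d2, d3, d4⟩ := hd
    have e1 : (c.del b x).f b' x' = c.f b' x' := Cfg.del_f_of_ne d3 d4
    have e2 : (c.del b' x').f b x = c.f b x := Cfg.del_f_of_ne d2.symm d4.symm
    have hx'1 : x' ∈ (c.del b x).S := by rw [Cfg.mem_del]; exact ⟨d2, d1, hx'⟩
    have hx2 : x ∈ (c.del b' x').S := by rw [Cfg.mem_del]; exact ⟨d3.symm, d1.symm, hx⟩
    have hl1 : (c.del b x).Leaf b' x' := ⟨hx'1, fun z hz => by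
      rw [e1]; exact hl'.2 z (Cfg.mem_del.1 hz).2.2⟩
    have hl2 : (c.del b' x').Leaf b x := ⟨hx2, fun z hz => by
      rw [e2]; exact hl.2 z (Cfg.mem_del.1 hz).2.2⟩
    have f1 : (c.del b x).dl E b' x' = c.dl E b' x' := by unfold Cfg.dl; rw [e1]
    have f2 : (c.del b' x').dl E b x = c.dl E b x := by unfold Cfg.dl; rw [e2]
    rcases Nat.lt_or_ge 4 c.S.card with h4 | h4
    · obtain ⟨a'', ha''⟩ := exists_out_del hG1 hC1 (by omega) hl1 (by rw [f1, ← hMM]; exact hV1)
      have o1 : Out E col (c.del b x) a'' :=
        Out.step (by omega) hl1 (by rw [f1, ← hMM]; exact hV1) ha''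
      have iso := Cfg.commute_iso hg hc hl hl' d1 d2 d3 d4
      have hG12 := Cfg.good_del hG1 (by omega) hl1
      have o2' : Out E col ((c.del b' x').del b x) (id a'') :=
        Iso.out (E' := E) (col' := col) ha'' hG12 iso (fun y _ => rfl) (fun y _ => rfl)
      have o2 : Out E col (c.del b' x') a'' :=
        Out.step (by omega) hl2 (by rw [f2, hMM]; exact hV2) o2'
      have g1 := ih _ (by omega) _ rfl hG1 hC1 _ _ ho o1
      have g2 := ih _ (by omega) _ rfl hG2 hC2 _ _ ho' o2
      rw [g1, g2]
    · -- four points
      have hS : ({x, c.f b x, x', c.f b' x'} : Finset W) = c.S := by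
        apply Finset.eq_of_subset_of_card_le
        · intro y hy; simp at hy; rcases hy with rfl | rfl | rfl | rfl <;> assumption
        · have n1 := hg.ne b x hx
          have n2 := hg.ne b' x' hx'
          rw [Finset.card_insert_of_notMem, Finset.card_insert_of_notMem,
            Finset.card_insert_of_notMem, Finset.card_singleton]
          · omega
          · simpa using n2.symm
          · simp only [Finset.mem_insert, Finset.mem_singleton, not_or]
            exact ⟨d2.symm, d4.symm⟩
          · simp only [Finset.mem_insert, Finset.mem_singleton, not_or]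
            exact ⟨n1.symm, d1.symm, d3.symm⟩
      by_cases hbb : b' = b
      · subst hbb
        obtain ⟨hEr, hEs, hP2⟩ := four_pts hg hc hl hl' hv hMM hS d1 d2 d3 d4
        have ma := ho.mem
        have ma' := ho'.mem
        rw [Cfg.mem_del, ← hS] at ma ma'
        simp only [Finset.mem_insert, Finset.mem_singleton] at ma ma'
        have ca := ho.col
        have ca' := ho'.col
        have c1 := hcol b' x hx
        have c2 := hcol b' x' hx'
        have c3 := hcol (!b') x hx
        rw [hP2] at c3
        have A1 : a = x' ∨ a = c.f b' x' := by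
          obtain ⟨m1, m2, m3 | m3 | m3 | m3⟩ := ma
          · exact absurd m3 m2
          · exact absurd m3 m1
          · left; exact m3
          · right; exact m3
        have A2 : a' = x ∨ a' = c.f b' x := by
          obtain ⟨m1, m2, m3 | m3 | m3 | m3⟩ := ma'
          · left; exact m3
          · right; exact m3
          · exact absurd m3 m2
          · exact absurd m3 m1
        rcases A1 with h5 | h5 <;> rcases A2 with h6 | h6
        · rw [h5, h6]; exact hEr
        · exfalso; rw [h6] at ca'; rw [h5] at ca
          rw [ca] at c2; rw [ca'] at c1; rw [c2] at c3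
          rcases hcx : col x with _ | _ <;> rw [hcx] at c1 c3 <;> simp at c1 c3
        · exfalso; rw [h6] at ca'; rw [h5] at ca
          rw [ca, ca'] at c3; simp at c3
        · rw [h5, h6]; exact hEs
      · exfalso
        have hb' : b' = !b := by
          rcases Cfg.bool_cases b b' with h1 | h1
          · exact absurd h1 hbb
          · exact h1
        subst hb'
        have hm := hg.mem b x' hx'
        have hn := hg.ne b x' hx'
        have hno := hg.ne_other hc b hx'
        rw [← hS] at hm
        simp at hm
        rcases hm with hm | hm | hm | hm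
        · apply d2; rw [← hm, hg.inv _ _ hx']
        · exact d1 (hg.inj hx' hx hm)
        · exact hn hm
        · exact hno hm.symm
  · -- the chords share a point
    rcases Cfg.bool_cases b b' with hbb | hbb
    · subst hbb
      have hcase : x' = x ∨ x' = c.f b' x := by
        by_contra hcon
        rw [not_or] at hcon
        apply hd
        refine ⟨hcon.1, hcon.2, ?_, ?_⟩
        · intro he; apply hcon.2; rw [← he, hg.inv _ _ hx']
        · intro he; exact hcon.1 (hg.inj hx' hx he)
      rcases hcase with rfl | rfl
      · exact ih _ (by omega) _ rfl hG1 hC1 _ _ ho ho'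
      · exfalso
        have : ∃ z ∈ c.S, z ≠ x ∧ z ≠ c.f b' x := by
          by_contra hcon
          push Not at hcon
          have hsub : c.S ⊆ {x, c.f b' x} := by
            intro z hz
            simp only [Finset.mem_insert, Finset.mem_singleton]
            by_cases h1 : z = x
            · left; exact h1
            · right; exact hcon z hz h1
          have := Finset.card_le_card hsub
          have h3 := Finset.card_le_two (a := x) (b := c.f b' x)
          omega
        obtain ⟨z, hz, z1, z2⟩ := this
        have l1 := hl.2 z hz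
        have l2 := hl'.2 z hz
        rw [hg.inv _ _ hx] at l2
        have n1 := hg.ne b' x hx
        generalize c.f b' x = q at *
        clear ho ho' hv hv' share ih hd
        unfold Cyc at *
        grind
    · subst hbb
      by_cases h1 : x' = c.f b x
      · subst h1
        exact share b x a a' hl hl' hMM ho ho'
      by_cases h2 : c.f (!b) x' = x
      · subst h2
        have := share (!b) x' a' a hl' (by rw [Bool.not_not]; exact hl)
          (by rw [Bool.not_not]; exact hMM.symm) ho' (by rw [Bool.not_not]; exact ho)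
        exact this.symm
      exfalso
      have l1 := hl.2 _ hs
      have l2 := hl'.2 _ hq
      have l3 := hl.2 _ hx'
      have l4 := hl'.2 _ hx
      have n1 := hg.ne b x hx
      have n2 := hg.ne (!b) x' hx'
      by_cases h3 : x' = x
      · subst h3
        have n3 := hg.ne_other hc b hx
        generalize c.f b x' = q at *
        generalize c.f (!b) x' = s at *
        clear ho ho' hv hv' share ih hd
        unfold Cyc at *
        grind
      · have h4 : c.f (!b) x' = c.f b x := by
          by_contra h5; exact hd ⟨h3, h1, h2, h5⟩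
        rw [h4] at l4
        generalize c.f b x = q at *
        clear ho ho' hv hv' share ih hd
        unfold Cyc at *
        grind

end Vale.Agent.P040.H906
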