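import Mathlib

/-! Selector lemma for meanders, part 1: configurations, deletion of a bigon, validity. -/

set_option linter.unusedVariables false
set_option linter.unusedSectionVars false

namespace Vale.Agent.P040.H906

variable {W : Type*} [LinearOrder W]

/-- going forward (cyclically) from `x` we meet `z` strictly before `y` -/
def Cyc (x z y : W) : Prop := (x < z ∧ z < y) ∨ (z < y ∧ y < x) ∨ (y < x ∧ x < z)

/-- two matchings (`true` = upper page, `false` = lower page) of a finite set of points -/
structure Cfg (W : Type*) where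
  S : Finset W
  f : Bool → W → W

structure Cfg.Good (c : Cfg W) : Prop where
  mem : ∀ b, ∀ x ∈ c.S, c.f b x ∈ c.S
  inv : ∀ b, ∀ x ∈ c.S, c.f b (c.f b x) = x
  ne : ∀ b, ∀ x ∈ c.S, c.f b x ≠ x
  nc : ∀ b, ∀ x ∈ c.S, ∀ y ∈ c.S, Cyc x y (c.f b x) → Cyc x (c.f b y) (c.f b x)
  conn : ∀ A ⊆ c.S, A.Nonempty → (∀ b, ∀ x ∈ A, c.f b x ∈ A) → A = c.S
  nonem : c.S.Nonempty

/-- sign of a page -/
def sg (b : Bool) : ℝ := if b then 1 else -1

/-- increment of `E` along the chord at `x`, seen so that `M + dl` is the mass of the arc going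
forward from `x` to its partner -/
def Cfg.dl (c : Cfg W) (E : W → ℝ) (b : Bool) (x : W) : ℝ := sg b * (E (c.f b x) - E x)

/-- `y` lies in the closed arc going forward from `x` to `f x` -/
def In (f : W → W) (x y : W) : Prop := y = x ∨ y = f x ∨ Cyc x y (f x)

/-- the closed arcs at `x` and `y` are disjoint -/
def Dis (f : W → W) (x y : W) : Prop := ¬ In f x y ∧ ¬ In f y x

/-- pairwise disjoint arcs -/
def PD (f : W → W) (T : Finset W) : Prop := ∀ x ∈ T, ∀ y ∈ T, x ≠ y → Dis f x y

def Cfg.Valid (c : Cfg W) (E : W → ℝ) (M : ℝ) : Prop :=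
  ∀ b, ∀ T ⊆ c.S, PD (c.f b) T → ∑ x ∈ T, (M + c.dl E b x) ≤ 2 * M

/-- an arc without points of `S` inside -/
def Cfg.Leaf (c : Cfg W) (b : Bool) (x : W) : Prop :=
  x ∈ c.S ∧ ∀ z ∈ c.S, ¬ Cyc x z (c.f b x)

/-- delete the chord at `x` on page `b`, splice the other page -/
def Cfg.del (c : Cfg W) (b : Bool) (x : W) : Cfg W where
  S := (c.S.erase x).erase (c.f b x)
  f := fun b' y => if b' = b then c.f b' y else
    if c.f b' y = x then c.f b' (c.f b x) else if c.f b' y = c.f b x then c.f b' x else c.f b' y

theorem sg_not (b : Bool) : sg (!b) = - sg b := by cases b <;> simp [sg]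

theorem sg_sq (b : Bool) : sg b * sg b = 1 := by cases b <;> simp [sg]

theorem Dis.symm {f : W → W} {x y : W} (h : Dis f x y) : Dis f y x := ⟨h.2, h.1⟩

theorem splice_nc1 {p q P Q z w : W} (hz1 : z ≠ p) (hz2 : z ≠ q) (hz3 : z ≠ P) (hz4 : z ≠ Q)
    (hw1 : w ≠ p) (hw2 : w ≠ q) (hw3 : w ≠ P) (hw4 : w ≠ Q)
    (hpq : p ≠ q) (hpP : p ≠ P) (hpQ : p ≠ Q) (hqP : q ≠ P) (hqQ : q ≠ Q) (hPQ : P ≠ Q)
    (l1 : ¬ Cyc p z q) (l2 : ¬ Cyc p w q) (l3 : ¬ Cyc p P q) (l4 : ¬ Cyc p Q q)
    (n1 : Cyc p z P → Cyc p w P) (n2 : Cyc P z p → Cyc P w p)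
    (n3 : Cyc q z Q → Cyc q w Q) (n4 : Cyc Q z q → Cyc Q w q)
    (n5 : Cyc p q P → Cyc p Q P)
    (h : Cyc P z Q) : Cyc P w Q := by
  unfold Cyc at *
  grind

theorem splice_nc2 {p q P Q z w : W} (hz1 : z ≠ p) (hz2 : z ≠ q) (hz3 : z ≠ P) (hz4 : z ≠ Q)
    (hw1 : w ≠ p) (hw2 : w ≠ q) (hw3 : w ≠ P) (hw4 : w ≠ Q)
    (hpq : p ≠ q) (hpP : p ≠ P) (hpQ : p ≠ Q) (hqP : q ≠ P) (hqQ : q ≠ Q) (hPQ : P ≠ Q)
    (l1 : ¬ Cyc p z q) (l2 : ¬ Cyc p w q) (l3 : ¬ Cyc p P q) (l4 : ¬ Cyc p Q q)
    (n1 : Cyc p z P → Cyc p w P) (n2 : Cyc P z p → Cyc P w p)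
    (n3 : Cyc q z Q → Cyc q w Q) (n4 : Cyc Q z q → Cyc Q w q)
    (n5 : Cyc p q P → Cyc p Q P)
    (h : Cyc Q z P) : Cyc Q w P := by
  unfold Cyc at *
  grind

theorem cyc_adj {p q y w : W} (hy1 : y ≠ p) (hy2 : y ≠ q) (hw1 : w ≠ p) (hw2 : w ≠ q)
    (hpq : p ≠ q) (hyw : y ≠ w)
    (l1 : ¬ Cyc p y q) (l2 : ¬ Cyc p w q) : Cyc y p w ↔ Cyc y q w := by
  unfold Cyc at *
  grind

theorem not_cyc_right {x y : W} : ¬ Cyc x y y := by unfold Cyc; grind
theorem not_cyc_left {x y : W} : ¬ Cyc x x y := by unfold Cyc; grind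

namespace Cfg

theorem mem_del {c : Cfg W} {b : Bool} {x y : W} :
    y ∈ (c.del b x).S ↔ y ≠ c.f b x ∧ y ≠ x ∧ y ∈ c.S := by
  simp [del, Finset.mem_erase]

theorem del_same (c : Cfg W) (b : Bool) (x y : W) : (c.del b x).f b y = c.f b y := by
  simp [del]

theorem del_other (c : Cfg W) (b : Bool) (x y : W) : (c.del b x).f (!b) y =
    if c.f (!b) y = x then c.f (!b) (c.f b x) else if c.f (!b) y = c.f b x then c.f (!b) x
      else c.f (!b) y := by
  simp [del]

theorem bool_cases (b b' : Bool) : b' = b ∨ b' = !b := by cases b <;> cases b' <;> simp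

theorem card_del {c : Cfg W} (h : c.Good) {b : Bool} {x : W} (hx : x ∈ c.S) :
    (c.del b x).S.card + 2 = c.S.card := by
  have h1 : c.f b x ∈ c.S.erase x := Finset.mem_erase.2 ⟨h.ne b x hx, h.mem b x hx⟩
  have h2 := Finset.card_erase_of_mem h1
  have h3 := Finset.card_erase_of_mem hx
  have h4 : 0 < (c.S.erase x).card := Finset.card_pos.2 ⟨_, h1⟩
  have h5 : 0 < c.S.card := Finset.card_pos.2 ⟨_, hx⟩
  simp only [del]
  omega

/-- in a connected configuration with more than two points the two partners differ -/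
theorem Good.ne_other {c : Cfg W} (h : c.Good) (hc : 2 < c.S.card) (b : Bool) {x : W}
    (hx : x ∈ c.S) : c.f (!b) x ≠ c.f b x := by
  intro he
  have hxb := h.mem b x hx
  have h1 : c.f (!b) (c.f b x) = x := by rw [← he]; exact h.inv _ x hx
  have : ({x, c.f b x} : Finset W) = c.S := by
    refine h.conn _ ?_ ⟨x, by simp⟩ ?_
    · intro y hy
      simp only [Finset.mem_insert, Finset.mem_singleton] at hy
      rcases hy with rfl | rfl
      · exact hx
      · exact hxb
    · intro b' y hy
      simp only [Finset.mem_insert, Finset.mem_singleton] at hy ⊢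
      rcases bool_cases b b' with rfl | rfl
      · rcases hy with rfl | rfl
        · right; rfl
        · left; exact h.inv _ x hx
      · rcases hy with rfl | rfl
        · right; exact he
        · left; exact h1
  rw [← this] at hc
  have := Finset.card_le_two (a := x) (b := c.f b x)
  omega

theorem Good.inj {c : Cfg W} (h : c.Good) {b : Bool} {x y : W} (hx : x ∈ c.S) (hy : y ∈ c.S)
    (he : c.f b x = c.f b y) : x = y := by
  rw [← h.inv b x hx, he, h.inv b y hy]

theorem good_del {c : Cfg W} (h : c.Good) (hc : 2 < c.S.card) {b : Bool} {x : W}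
    (hl : c.Leaf b x) : (c.del b x).Good := by
  obtain ⟨hx, hleaf⟩ := hl
  have hq := h.mem b x hx
  have hP := h.mem (!b) x hx
  have hQ := h.mem (!b) _ hq
  have hpq := h.ne b x hx
  have hPp := h.ne (!b) x hx
  have hQq := h.ne (!b) _ hq
  have hPq := h.ne_other hc b hx
  have hinvP := h.inv (!b) x hx
  have hinvQ := h.inv (!b) _ hq
  have hQp : c.f (!b) (c.f b x) ≠ x := by
    intro he; apply hPq; rw [← he, hinvQ, he]
  have hPQ : c.f (!b) x ≠ c.f (!b) (c.f b x) := by
    intro he; exact hpq (h.inj hx hq he).symm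
  refine ⟨?_, ?_, ?_, ?_, ?_, ?_⟩
  · -- mem
    intro b' y hy
    rw [mem_del] at hy ⊢
    obtain ⟨hy1, hy2, hy3⟩ := hy
    rcases bool_cases b b' with rfl | rfl
    · rw [del_same]
      refine ⟨fun he => hy2 (h.inj hy3 hx he), fun he => hy1 ?_, h.mem _ _ hy3⟩
      rw [← he, h.inv _ _ hy3]
    · rw [del_other]
      split_ifs with h1 h2
      · exact ⟨hQq, hQp, hQ⟩
      · exact ⟨hPq, hPp, hP⟩
      · exact ⟨h2, h1, h.mem _ _ hy3⟩
  · -- inv
    intro b' y hy
    rw [mem_del] at hy
    obtain ⟨hy1, hy2, hy3⟩ := hy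
    rcases bool_cases b b' with rfl | rfl
    · rw [del_same, del_same]; exact h.inv _ _ hy3
    · have hi := h.inv (!b) y hy3
      rw [del_other, del_other]
      split_ifs with h1 h2 h3 h4 h5 h6 <;> grind
  · -- ne
    intro b' y hy
    rw [mem_del] at hy
    obtain ⟨hy1, hy2, hy3⟩ := hy
    rcases bool_cases b b' with rfl | rfl
    · rw [del_same]; exact h.ne _ _ hy3
    · have hi := h.inv (!b) y hy3
      have hn := h.ne (!b) y hy3
      rw [del_other]
      split_ifs with h1 h2 <;> grind
  · -- nc
    intro b' y hy z hz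
    rw [mem_del] at hy hz
    obtain ⟨hy1, hy2, hy3⟩ := hy
    obtain ⟨hz1, hz2, hz3⟩ := hz
    rcases bool_cases b b' with rfl | rfl
    · rw [del_same, del_same]; exact h.nc _ _ hy3 _ hz3
    · have hiy := h.inv (!b) y hy3
      have hiz := h.inv (!b) z hz3
      have hny := h.ne (!b) y hy3
      have hnz := h.ne (!b) z hz3
      have hmy := h.mem (!b) y hy3
      have hmz := h.mem (!b) z hz3
      have hzp : c.f (!b) z ≠ x ↔ z ≠ c.f (!b) x := by
        constructor
        · rintro h1 rfl; exact h1 hinvP
        · rintro h1 h2; exact h1 (by rw [← h2, hiz])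
      have hzq : c.f (!b) z ≠ c.f b x ↔ z ≠ c.f (!b) (c.f b x) := by
        constructor
        · rintro h1 rfl; exact h1 hinvQ
        · rintro h1 h2; exact h1 (by rw [← h2, hiz])
      have hyp : c.f (!b) y ≠ x ↔ y ≠ c.f (!b) x := by
        constructor
        · rintro h1 rfl; exact h1 hinvP
        · rintro h1 h2; exact h1 (by rw [← h2, hiy])
      have hyq : c.f (!b) y ≠ c.f b x ↔ y ≠ c.f (!b) (c.f b x) := by
        constructor
        · rintro h1 rfl; exact h1 hinvQ
        · rintro h1 h2; exact h1 (by rw [← h2, hiy])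
      have hwP : z ≠ x → c.f (!b) z ≠ c.f (!b) x := fun h1 h2 => h1 (h.inj hz3 hx h2)
      have hwQ : z ≠ c.f b x → c.f (!b) z ≠ c.f (!b) (c.f b x) :=
        fun h1 h2 => h1 (h.inj hz3 hq h2)
      have n1 := h.nc (!b) x hx z hz3
      have n2 := h.nc (!b) _ hP z hz3
      have n3 := h.nc (!b) _ hq z hz3
      have n4 := h.nc (!b) _ hQ z hz3
      have k1 := h.nc (!b) x hx _ hq
      rw [hinvP] at n2
      rw [hinvQ] at n4
      have l1 := hleaf z hz3
      have l2 := hleaf _ hmz
      have l3 := hleaf _ hP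
      have l4 := hleaf _ hQ
      rw [del_other, del_other]
      by_cases hy4 : c.f (!b) y = x
      · rw [if_pos hy4]
        have hyP : y = c.f (!b) x := by rw [← hy4, hiy]
        rw [hyP]
        intro hcy
        by_cases hz4 : c.f (!b) z = x
        · have : z = c.f (!b) x := by rw [← hz4, hiz]
          rw [this] at hcy; exact absurd hcy not_cyc_left
        by_cases hz5 : c.f (!b) z = c.f b x
        · have : z = c.f (!b) (c.f b x) := by rw [← hz5, hiz]
          rw [this] at hcy; exact absurd hcy not_cyc_right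
        rw [if_neg hz4, if_neg hz5]
        exact splice_nc1 hz2 hz1 (hzp.1 hz4) (hzq.1 hz5) hz4 hz5 (hwP hz2) (hwQ hz1)
          hpq.symm hPp.symm hQp.symm hPq.symm hQq.symm hPQ l1 l2 l3 l4 n1 n2 n3 n4 k1 hcy
      rw [if_neg hy4]
      by_cases hy5 : c.f (!b) y = c.f b x
      · rw [if_pos hy5]
        have hyQ : y = c.f (!b) (c.f b x) := by rw [← hy5, hiy]
        rw [hyQ]
        intro hcy
        by_cases hz4 : c.f (!b) z = x
        · have : z = c.f (!b) x := by rw [← hz4, hiz]
          rw [this] at hcy; exact absurd hcy not_cyc_right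
        by_cases hz5 : c.f (!b) z = c.f b x
        · have : z = c.f (!b) (c.f b x) := by rw [← hz5, hiz]
          rw [this] at hcy; exact absurd hcy not_cyc_left
        rw [if_neg hz4, if_neg hz5]
        exact splice_nc2 hz2 hz1 (hzp.1 hz4) (hzq.1 hz5) hz4 hz5 (hwP hz2) (hwQ hz1)
          hpq.symm hPp.symm hQp.symm hPq.symm hQq.symm hPQ l1 l2 l3 l4 n1 n2 n3 n4 k1 hcy
      rw [if_neg hy5]
      have ad := cyc_adj (p := x) (q := c.f b x) (y := y) (w := c.f (!b) y) hy2 hy1 hy4 hy5
        hpq.symm hny.symm (hleaf y hy3) (hleaf _ hmy)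
      have m1 := h.nc (!b) y hy3 x hx
      have m1' := h.nc (!b) y hy3 _ hP
      have m2 := h.nc (!b) y hy3 _ hq
      have m2' := h.nc (!b) y hy3 _ hQ
      rw [hinvP] at m1'
      rw [hinvQ] at m2'
      intro hcy
      by_cases hz4 : c.f (!b) z = x
      · have : z = c.f (!b) x := by rw [← hz4, hiz]
        rw [if_pos hz4]
        rw [this] at hcy
        exact m2 (ad.1 (m1' hcy))
      by_cases hz5 : c.f (!b) z = c.f b x
      · have : z = c.f (!b) (c.f b x) := by rw [← hz5, hiz]
        rw [if_neg hz4, if_pos hz5]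
        rw [this] at hcy
        exact m1 (ad.2 (m2' hcy))
      rw [if_neg hz4, if_neg hz5]
      exact h.nc (!b) y hy3 z hz3 hcy
  · -- conn
    intro A hA hne hcl
    have hAS : ∀ y ∈ A, y ∈ c.S ∧ y ≠ x ∧ y ≠ c.f b x := fun y hy => by
      have := hA hy; rw [mem_del] at this; exact ⟨this.2.2, this.2.1, this.1⟩
    by_cases hcase : c.f (!b) x ∈ A
    · have hQA : c.f (!b) (c.f b x) ∈ A := by
        have := hcl (!b) _ hcase
        rw [del_other, if_pos hinvP] at this
        exact this
      have hB : insert x (insert (c.f b x) A) = c.S := by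
        refine h.conn _ ?_ ⟨x, by simp⟩ ?_
        · intro y hy
          simp only [Finset.mem_insert] at hy
          rcases hy with rfl | rfl | hy
          · exact hx
          · exact hq
          · exact (hAS y hy).1
        · intro b' y hy
          simp only [Finset.mem_insert] at hy ⊢
          rcases bool_cases b b' with rfl | rfl
          · rcases hy with rfl | rfl | hy
            · right; left; rfl
            · left; exact h.inv _ _ hx
            · right; right
              have := hcl b' y hy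
              rwa [del_same] at this
          · rcases hy with rfl | rfl | hy
            · right; right; exact hcase
            · right; right; exact hQA
            · have := hcl (!b) y hy
              rw [del_other] at this
              by_cases h1 : c.f (!b) y = x
              · left; exact h1
              by_cases h2 : c.f (!b) y = c.f b x
              · right; left; exact h2
              rw [if_neg h1, if_neg h2] at this
              right; right; exact this
      ext y
      rw [mem_del]
      constructor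
      · intro hy; have := hAS y hy; exact ⟨this.2.2, this.2.1, this.1⟩
      · rintro ⟨h1, h2, h3⟩
        rw [← hB] at h3
        simp only [Finset.mem_insert] at h3
        tauto
    · have hQA : c.f (!b) (c.f b x) ∉ A := by
        intro h1
        apply hcase
        have := hcl (!b) _ h1
        rw [del_other, if_neg (by rw [hinvQ]; exact hpq), if_pos hinvQ] at this
        exact this
      have hB : A = c.S := by
        refine h.conn _ (fun y hy => (hAS y hy).1) hne ?_
        intro b' y hy
        rcases bool_cases b b' with rfl | rfl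
        · have := hcl b' y hy
          rwa [del_same] at this
        · have := hcl (!b) y hy
          rw [del_other] at this
          have h1 : c.f (!b) y ≠ x := by
            intro h1; apply hcase; rw [← h1, h.inv _ _ (hAS y hy).1]; exact hy
          have h2 : c.f (!b) y ≠ c.f b x := by
            intro h1; apply hQA; rw [← h1, h.inv _ _ (hAS y hy).1]; exact hy
          rwa [if_neg h1, if_neg h2] at this
      exfalso
      rw [← hB] at hx
      exact (hAS x hx).2.1 rfl
  · have := card_del h hx (b := b)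
    exact Finset.card_pos.1 (by omega)

theorem dl_inv {c : Cfg W} (h : c.Good) {E : W → ℝ} {b : Bool} {x : W} (hx : x ∈ c.S) :
    c.dl E b (c.f b x) = - c.dl E b x := by
  unfold dl; rw [h.inv b x hx]; ring

theorem Valid.le {c : Cfg W} {E : W → ℝ} {M : ℝ} (hv : c.Valid E M) {b : Bool} {x : W}
    (hx : x ∈ c.S) : c.dl E b x ≤ M := by
  have := hv b {x} (by simpa using hx) (by
    intro y hy z hz hyz; simp at hy hz; exact absurd (hy.trans hz.symm) hyz)
  simp at this; linarith

theorem Valid.ge {c : Cfg W} (h : c.Good) {E : W → ℝ} {M : ℝ} (hv : c.Valid E M) {b : Bool}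
    {x : W} (hx : x ∈ c.S) : -M ≤ c.dl E b x := by
  have := hv.le (h.mem b x hx) (b := b)
  rw [dl_inv h hx] at this; linarith

theorem Valid.nonneg {c : Cfg W} {E : W → ℝ} {M : ℝ} (hv : c.Valid E M) : 0 ≤ M := by
  have := hv true ∅ (by simp) (by intro y hy; simp at hy)
  simp at this; exact this

theorem In_congr {f g : W → W} {x : W} (h : f x = g x) (y : W) : In f x y ↔ In g x y := by
  unfold In; rw [h]

theorem PD_congr {f g : W → W} {T : Finset W} (h : ∀ x ∈ T, f x = g x) :
    PD f T ↔ PD g T := by
  unfold PD Dis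
  constructor
  · intro H x hx y hy hxy
    rw [← In_congr (h x hx), ← In_congr (h y hy)]; exact H x hx y hy hxy
  · intro H x hx y hy hxy
    rw [In_congr (h x hx), In_congr (h y hy)]; exact H x hx y hy hxy

/-- order facts around a leaf `p → q` and its partners `P`, `Q` on the other page -/
theorem leaf_order {p q P Q : W} (hpq : p ≠ q) (hpP : p ≠ P) (hpQ : p ≠ Q) (hqP : q ≠ P)
    (hqQ : q ≠ Q) (hPQ : P ≠ Q) (l3 : ¬ Cyc p P q) (l4 : ¬ Cyc p Q q)
    (n5 : Cyc p q P → Cyc p Q P) : Cyc p q Q ∧ Cyc p Q P ∧ Cyc q Q P ∧ Cyc p q P := by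
  unfold Cyc at *
  grind

theorem valid_del {c : Cfg W} (h : c.Good) (hc : 2 < c.S.card) {b : Bool} {x : W}
    (hl : c.Leaf b x) {E : W → ℝ} {M : ℝ} (hv : c.Valid E M) (h0 : M + c.dl E b x = 0) :
    (c.del b x).Valid E M := by
  have hl' := hl
  obtain ⟨hx, hleaf⟩ := hl
  have hq := h.mem b x hx
  have hP := h.mem (!b) x hx
  have hQ := h.mem (!b) _ hq
  have hpq := h.ne b x hx
  have hPp := h.ne (!b) x hx
  have hQq := h.ne (!b) _ hq
  have hPq := h.ne_other hc b hx
  have hinvP := h.inv (!b) x hx
  have hinvQ := h.inv (!b) _ hq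
  have hQp : c.f (!b) (c.f b x) ≠ x := by
    intro he; apply hPq; rw [← he, hinvQ, he]
  have hPQ : c.f (!b) x ≠ c.f (!b) (c.f b x) := by
    intro he; exact hpq (h.inj hx hq he).symm
  obtain ⟨o1, o2, o3, o4⟩ := leaf_order hpq.symm hPp.symm hQp.symm hPq.symm hQq.symm hPQ
    (hleaf _ hP) (hleaf _ hQ) (h.nc (!b) x hx _ hq)
  intro b' T hT hPD
  have hTS : ∀ y ∈ T, y ≠ c.f b x ∧ y ≠ x ∧ y ∈ c.S := fun y hy => mem_del.1 (hT hy)
  rcases bool_cases b b' with rfl | rfl
  · have h1 : ∀ y ∈ T, (c.del b' x).f b' y = c.f b' y := fun y _ => del_same _ _ _ _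
    have := hv b' T (fun y hy => (hTS y hy).2.2) ((PD_congr h1).1 hPD)
    refine le_trans (le_of_eq ?_) this
    refine Finset.sum_congr rfl fun y hy => ?_
    unfold dl; rw [del_same]
  · -- the other page
    set p := x with hp
    set q := c.f b x with hqdef
    set P := c.f (!b) x with hPdef
    set Q := c.f (!b) q with hQdef
    set g := (c.del b x).f (!b) with hg
    have hgP : g P = Q := by rw [hg, del_other]; rw [if_pos hinvP]
    have hgQ : g Q = P := by
      rw [hg, del_other, if_neg (by rw [hinvQ]; exact hpq), if_pos hinvQ]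
    have hgo : ∀ y ∈ c.S, y ≠ P → y ≠ Q → g y = c.f (!b) y := by
      intro y hy h1 h2
      rw [hg, del_other, if_neg, if_neg]
      · intro h3; apply h2; rw [hQdef, hqdef, ← h3, h.inv _ _ hy]
      · intro h3; apply h1; rw [hPdef, ← h3, h.inv _ _ hy]
    have hEo : ∀ y ∈ c.S, y ≠ P → y ≠ Q → (c.del b x).dl E (!b) y = c.dl E (!b) y := by
      intro y hy h1 h2
      have := hgo y hy h1 h2
      unfold dl; rw [← hg, this]
    have hEP : (c.del b x).dl E (!b) P = sg (!b) * (E Q - E P) := by
      unfold dl; rw [← hg, hgP]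
    have hEQ : (c.del b x).dl E (!b) Q = sg (!b) * (E P - E Q) := by
      unfold dl; rw [← hg, hgQ]
    have hFP : c.dl E (!b) P = sg (!b) * (E p - E P) := by unfold dl; rw [hinvP]
    have hFq : c.dl E (!b) q = sg (!b) * (E Q - E q) := by unfold dl; rfl
    have hFp : c.dl E (!b) p = sg (!b) * (E P - E p) := by unfold dl; rfl
    have hFQ : c.dl E (!b) Q = sg (!b) * (E q - E Q) := by unfold dl; rw [hinvQ]
    have h0' : M + sg b * (E q - E p) = 0 := h0
    have hsg := sg_not b
    have hadj : ∀ y ∈ T, y ≠ P → y ≠ Q → (Cyc y p (c.f (!b) y) ↔ Cyc y q (c.f (!b) y)) := by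
      intro y hy h1 h2
      obtain ⟨hy1, hy2, hy3⟩ := hTS y hy
      refine cyc_adj hy2 hy1 ?_ ?_ hpq.symm (h.ne _ _ hy3).symm (hleaf y hy3)
        (hleaf _ (h.mem _ _ hy3))
      · intro h3; exact h1 ((h.inv _ _ hy3).symm.trans (by rw [h3]))
      · intro h3; exact h2 ((h.inv _ _ hy3).symm.trans (by rw [h3]))
    have hyp' : ∀ y ∈ T, y ≠ P → c.f (!b) y ≠ p := by
      intro y hy h1 h3; exact h1 ((h.inv _ _ (hTS y hy).2.2).symm.trans (by rw [h3]))
    have hyq' : ∀ y ∈ T, y ≠ Q → c.f (!b) y ≠ q := by
      intro y hy h1 h3; exact h1 ((h.inv _ _ (hTS y hy).2.2).symm.trans (by rw [h3]))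
    by_cases hPT : P ∈ T
    · -- replace `P` by `P` and `q`
      have hT0 : ∀ y ∈ T.erase P, y ∈ T ∧ y ≠ P ∧ y ≠ Q ∧ ¬ Cyc P y Q ∧ ¬ Cyc y P (c.f (!b) y) ∧
          P ≠ c.f (!b) y := by
        intro y hy
        rw [Finset.mem_erase] at hy
        have hd := hPD P hPT y hy.2 hy.1.symm
        unfold Dis In at hd
        rw [hgP] at hd
        have hyQ : y ≠ Q := by intro h1; exact hd.1 (Or.inr (Or.inl h1))
        rw [hgo y (hTS y hy.2).2.2 hy.1 hyQ] at hd
        exact ⟨hy.2, hy.1, hyQ, fun h1 => hd.1 (Or.inr (Or.inr h1)),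
          fun h1 => hd.2 (Or.inr (Or.inr h1)), fun h1 => hd.2 (Or.inr (Or.inl h1))⟩
      have hqT : q ∉ T.erase P := fun h1 => (hTS q (Finset.mem_erase.1 h1).2).1 rfl
      have hPT0 : P ∉ insert q (T.erase P) := by
        simp only [Finset.mem_insert, Finset.mem_erase, not_or]
        exact ⟨hPq, fun h1 => h1.1 rfl⟩
      have hDPy : ∀ y ∈ T.erase P, Dis (c.f (!b)) P y := by
        intro y hy
        obtain ⟨hyT, hyP, hyQ, h1, h2, h3⟩ := hT0 y hy
        obtain ⟨hy1, hy2, hy3⟩ := hTS y hyT
        refine ⟨?_, ?_⟩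
        · rintro (h4 | h4 | h4)
          · exact hyP h4
          · rw [hinvP] at h4; exact hy2 h4
          · rw [hinvP] at h4; apply h1
            clear_value p q P Q
            unfold Cyc at *; grind
        · rintro (h4 | h4 | h4)
          · exact hyP h4.symm
          · exact h3 h4
          · exact h2 h4
      have hDqy : ∀ y ∈ T.erase P, Dis (c.f (!b)) q y := by
        intro y hy
        obtain ⟨hyT, hyP, hyQ, h1, h2, h3⟩ := hT0 y hy
        obtain ⟨hy1, hy2, hy3⟩ := hTS y hyT
        refine ⟨?_, ?_⟩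
        · rintro (h4 | h4 | h4)
          · exact hy1 h4
          · exact hyQ h4
          · apply h1
            rw [← hQdef] at h4
            clear_value p q P Q
            unfold Cyc at *; grind
        · rintro (h4 | h4 | h4)
          · exact hy1 h4.symm
          · exact hyq' y hyT hyQ h4.symm
          · exact h2 (h.nc (!b) y hy3 p hx ((hadj y hyT hyP hyQ).2 h4))
      have hDPq : Dis (c.f (!b)) P q := by
        refine ⟨?_, ?_⟩
        · rintro (h4 | h4 | h4)
          · exact hPq h4.symm
          · rw [hinvP] at h4; exact hpq h4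
          · rw [hinvP] at h4
            clear_value p q P Q
            unfold Cyc at *; grind
        · rintro (h4 | h4 | h4)
          · exact hPq h4
          · exact hPQ h4
          · rw [← hQdef] at h4
            clear_value p q P Q
            unfold Cyc at *; grind
      have hfam := hv (!b) (insert P (insert q (T.erase P))) (by
          intro y hy
          simp only [Finset.mem_insert, Finset.mem_erase] at hy
          rcases hy with rfl | rfl | hy
          · exact hP
          · exact hq
          · exact (hTS y hy.2).2.2) (by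
          intro y hy z hz hyz
          simp only [Finset.mem_insert] at hy hz
          rcases hy with rfl | rfl | hy <;> rcases hz with rfl | rfl | hz
          · exact absurd rfl hyz
          · exact hDPq
          · exact hDPy z hz
          · exact hDPq.symm
          · exact absurd rfl hyz
          · exact hDqy z hz
          · exact (hDPy y hy).symm
          · exact (hDqy y hy).symm
          · have h1 := hT0 y hy
            have h2 := hT0 z hz
            have := hPD y h1.1 z h2.1 hyz
            unfold Dis In at this ⊢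
            rw [hgo y (hTS y h1.1).2.2 h1.2.1 h1.2.2.1,
              hgo z (hTS z h2.1).2.2 h2.2.1 h2.2.2.1] at this
            exact this)
      rw [Finset.sum_insert hPT0, Finset.sum_insert hqT, hFP, hFq] at hfam
      rw [← Finset.add_sum_erase T _ hPT, hEP]
      have hs : ∑ y ∈ T.erase P, (M + (c.del b x).dl E (!b) y) =
          ∑ y ∈ T.erase P, (M + c.dl E (!b) y) := by
        refine Finset.sum_congr rfl fun y hy => ?_
        have h1 := hT0 y hy
        rw [hEo y (hTS y h1.1).2.2 h1.2.1 h1.2.2.1]
      rw [hs]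
      rw [hsg] at hfam ⊢
      linarith
    · by_cases hQT : Q ∈ T
      · have hT0 : ∀ y ∈ T.erase Q, y ∈ T ∧ y ≠ P ∧ y ≠ Q ∧ ¬ Cyc Q y P ∧
            ¬ Cyc y Q (c.f (!b) y) ∧ Q ≠ c.f (!b) y := by
          intro y hy
          rw [Finset.mem_erase] at hy
          have hd := hPD Q hQT y hy.2 hy.1.symm
          unfold Dis In at hd
          rw [hgQ] at hd
          have hyP : y ≠ P := by intro h1; exact hd.1 (Or.inr (Or.inl h1))
          rw [hgo y (hTS y hy.2).2.2 hyP hy.1] at hd
          exact ⟨hy.2, hyP, hy.1, fun h1 => hd.1 (Or.inr (Or.inr h1)),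
            fun h1 => hd.2 (Or.inr (Or.inr h1)), fun h1 => hd.2 (Or.inr (Or.inl h1))⟩
        classical
        have hPDT0 : ∀ y ∈ T.erase Q, ∀ z ∈ T.erase Q, y ≠ z → Dis (c.f (!b)) y z := by
          intro y hy z hz hyz
          have h1 := hT0 y hy
          have h2 := hT0 z hz
          have := hPD y h1.1 z h2.1 hyz
          unfold Dis In at this ⊢
          rw [hgo y (hTS y h1.1).2.2 h1.2.1 h1.2.2.1,
            hgo z (hTS z h2.1).2.2 h2.2.1 h2.2.2.1] at this
          exact this
        have hsplit := Finset.sum_filter_add_sum_filter_not (T.erase Q) (fun y => Cyc P y p)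
          (fun y => M + c.dl E (!b) y)
        have hD1 : ∀ y ∈ (T.erase Q).filter (fun y => Cyc P y p), Dis (c.f (!b)) p y := by
          intro y hy
          rw [Finset.mem_filter] at hy
          obtain ⟨hyT, hyP, hyQ, h1, h2, h3⟩ := hT0 y hy.1
          obtain ⟨hy1, hy2, hy3⟩ := hTS y hyT
          have h5 := hy.2
          refine ⟨?_, ?_⟩
          · rintro (h4 | h4 | h4)
            · exact hy2 h4
            · exact hyP h4
            · rw [← hPdef] at h4
              clear_value p q P Q
              unfold Cyc at *; grind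
          · rintro (h4 | h4 | h4)
            · exact hy2 h4.symm
            · exact hyp' y hyT hyP h4.symm
            · exact h2 (h.nc (!b) y hy3 q hq ((hadj y hyT hyP hyQ).1 h4))
        have hD2 : ∀ y ∈ (T.erase Q).filter (fun y => ¬ Cyc P y p), Dis (c.f (!b)) Q y := by
          intro y hy
          rw [Finset.mem_filter] at hy
          obtain ⟨hyT, hyP, hyQ, h1, h2, h3⟩ := hT0 y hy.1
          obtain ⟨hy1, hy2, hy3⟩ := hTS y hyT
          have h5 := hy.2
          have h6 := hleaf y hy3
          refine ⟨?_, ?_⟩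
          · rintro (h4 | h4 | h4)
            · exact hyQ h4
            · rw [hinvQ] at h4; exact hy1 h4
            · rw [hinvQ] at h4
              clear_value p q P Q
              unfold Cyc at *; grind
          · rintro (h4 | h4 | h4)
            · exact hyQ h4.symm
            · exact h3 h4
            · exact h2 h4
        have hpn : p ∉ (T.erase Q).filter (fun y => Cyc P y p) := by
          intro h1
          exact (hTS p (Finset.mem_erase.1 (Finset.mem_filter.1 h1).1).2).2.1 rfl
        have hQn : Q ∉ (T.erase Q).filter (fun y => ¬ Cyc P y p) := by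
          intro h1
          exact (Finset.mem_erase.1 (Finset.mem_filter.1 h1).1).1 rfl
        have hfam1 := hv (!b) (insert p ((T.erase Q).filter (fun y => Cyc P y p))) (by
            intro y hy
            simp only [Finset.mem_insert, Finset.mem_filter, Finset.mem_erase] at hy
            rcases hy with rfl | hy
            · exact hx
            · exact (hTS y hy.1.2).2.2) (by
            intro y hy z hz hyz
            simp only [Finset.mem_insert] at hy hz
            rcases hy with rfl | hy <;> rcases hz with rfl | hz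
            · exact absurd rfl hyz
            · exact hD1 z hz
            · exact (hD1 y hy).symm
            · exact hPDT0 y (Finset.mem_filter.1 hy).1 z (Finset.mem_filter.1 hz).1 hyz)
        have hfam2 := hv (!b) (insert Q ((T.erase Q).filter (fun y => ¬ Cyc P y p))) (by
            intro y hy
            simp only [Finset.mem_insert, Finset.mem_filter, Finset.mem_erase] at hy
            rcases hy with rfl | hy
            · exact hQ
            · exact (hTS y hy.1.2).2.2) (by
            intro y hy z hz hyz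
            simp only [Finset.mem_insert] at hy hz
            rcases hy with rfl | hy <;> rcases hz with rfl | hz
            · exact absurd rfl hyz
            · exact hD2 z hz
            · exact (hD2 y hy).symm
            · exact hPDT0 y (Finset.mem_filter.1 hy).1 z (Finset.mem_filter.1 hz).1 hyz)
        rw [Finset.sum_insert hpn, hFp] at hfam1
        rw [Finset.sum_insert hQn, hFQ] at hfam2
        rw [← Finset.add_sum_erase T _ hQT, hEQ]
        have hs : ∑ y ∈ T.erase Q, (M + (c.del b x).dl E (!b) y) =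
            ∑ y ∈ T.erase Q, (M + c.dl E (!b) y) := by
          refine Finset.sum_congr rfl fun y hy => ?_
          have h1 := hT0 y hy
          rw [hEo y (hTS y h1.1).2.2 h1.2.1 h1.2.2.1]
        rw [hs, ← hsplit]
        rw [hsg] at hfam1 hfam2 ⊢
        linarith
      · have h1 : ∀ y ∈ T, g y = c.f (!b) y := fun y hy =>
          hgo y (hTS y hy).2.2 (fun h1 => hPT (h1 ▸ hy)) (fun h1 => hQT (h1 ▸ hy))
        have := hv (!b) T (fun y hy => (hTS y hy).2.2) ((PD_congr h1).1 hPD)
        refine le_trans (le_of_eq ?_) this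
        refine Finset.sum_congr rfl fun y hy => ?_
        rw [hEo y (hTS y hy).2.2 (fun h1 => hPT (h1 ▸ hy)) (fun h1 => hQT (h1 ▸ hy))]

end Cfg

end Vale.Agent.P040.H906
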