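import Vale.Agent.P040.H906.TriAux
import Vale.Agent.P040.H587.Robust

/-!
# From the centre (weakly valid) to a robust phase with three responding arcs (helper906)
-/

set_option linter.unusedSectionVars false
set_option linter.unusedVariables false

namespace Vale.Agent.P040.H906

open P040H251 H587

variable {W : Type*} [LinearOrder W]

/-- isolated values -/
theorem exists_gap (S : Finset W) (E : W → ℝ) (t : ℝ) :
    ∃ δ : ℝ, 0 < δ ∧ ∀ x ∈ S, |E x - t| < δ → E x = t := by
  classical
  induction S using Finset.induction_on with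
  | empty => exact ⟨1, one_pos, by simp⟩
  | @insert a S ha ih =>
    obtain ⟨δ, hδ, h⟩ := ih
    by_cases hat : E a = t
    · refine ⟨δ, hδ, fun x hx hd => ?_⟩
      rcases Finset.mem_insert.1 hx with rfl | hx
      · exact hat
      · exact h x hx hd
    · refine ⟨min δ |E a - t|, lt_min hδ (abs_pos.2 (sub_ne_zero.2 hat)), fun x hx hd => ?_⟩
      rcases Finset.mem_insert.1 hx with rfl | hx
      · exact absurd (lt_of_lt_of_le hd (min_le_right _ _)) (lt_irrefl _)
      · exact h x hx (lt_of_lt_of_le hd (min_le_left _ _))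

theorem exists_bound (S : Finset W) (E E' : W → ℝ) : ∃ B : ℝ, 0 ≤ B ∧ ∀ x ∈ S, |E x - E' x| ≤ B :=
  ⟨∑ x ∈ S, |E x - E' x|, Finset.sum_nonneg fun _ _ => abs_nonneg _, fun _ hx =>
    Finset.single_le_sum (f := fun x => |E x - E' x|) (fun _ _ => abs_nonneg _) hx⟩

/-- the response of the selector to a small raise of the points of an arc -/
theorem resp_of_gt {col : W → Bool} {c : Cfg W} {E' : W → ℝ} {lab : W → ZMod 3} {i : ZMod 3}
    {δ s M M' : ℝ} (hg : c.Good) (hcol : ColOK col c) (hv : c.Valid E' M)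
    (hv' : c.Valid (up E' lab (ee i s)) M')
    (hgap : ∀ x ∈ c.S, |E' x - vt col c E'| < δ → E' x = vt col c E') (hs : s < δ)
    (hgt : vt col c E' < vt col c (up E' lab (ee i s))) (hs0 : 0 ≤ s) :
    vt col c (up E' lab (ee i s)) = vt col c E' + s := by
  have h2 : vt col c (up E' lab (ee i s)) ≤ vt col c E' + s := by
    refine vt_lip hg hcol hv hv' fun x _ => ?_
    unfold up ee; split_ifs <;> linarith
  obtain ⟨p, hp, hc, he⟩ := vt_mem hg hcol hv'
  by_cases hl : lab p = i
  · have e1 : up E' lab (ee i s) p = E' p + s := by unfold up ee; rw [if_pos hl]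
    rw [e1] at he
    have := hgap p hp (by rw [abs_lt]; constructor <;> linarith)
    rw [he, this]
  · have e1 : up E' lab (ee i s) p = E' p := by unfold up ee; rw [if_neg hl, add_zero]
    rw [e1] at he
    have := hgap p hp (by rw [abs_lt]; constructor <;> linarith)
    rw [he, this] at hgt
    exact absurd hgt (lt_irrefl _)

/-- **(F)** -/
theorem exists_rob_or {col : W → Bool} {c : Cfg W} {E : W → ℝ} {lab : W → ZMod 3}
    (hg : c.Good) (hcol : ColOK col c)
    (hval : ∀ u : ZMod 3 → ℝ, (∀ i, |u i| ≤ 1 / 2) → ∃ M, c.Valid (up E lab u) M)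
    (hor : ∀ i, vt col c (up E lab (ee i (1 / 2))) = vt col c E + 1 / 2) :
    ∀ δ : ℝ, 0 < δ → ∃ E' : W → ℝ, Rob c E' ∧ (∀ x ∈ c.S, |E' x - E x| ≤ δ) ∧
      ∀ i, ∃ s0 : ℝ, 0 < s0 ∧ ∀ s, 0 ≤ s → s ≤ s0 →
        vt col c (fun x => E' x + if col x = true ∧ lab x = i then s else 0) =
          vt col c E' + s := by
  classical
  intro δ hδ
  obtain ⟨M0, hv0'⟩ := hval (fun _ => 0) (by intro i; simp)
  have hv0 : c.Valid E M0 := by rwa [up_zero] at hv0'
  obtain ⟨E1, hE1⟩ := exists_rob hg
  obtain ⟨B, hB0, hB⟩ := exists_bound c.S E1 E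
  -- the parameter
  obtain ⟨d, hd0, hd1, hd2, hd3⟩ : ∃ d : ℝ, 0 < d ∧ d ≤ 1 / 2 ∧ 4 * (d * B) < 1 / 4 ∧
      5 * (d * B) ≤ δ := by
    refine ⟨min (1 / 2) (min (1 / (16 * B + 32)) (δ / (5 * B + 5))), ?_, min_le_left _ _, ?_, ?_⟩
    · refine lt_min (by norm_num) (lt_min (by positivity) (by positivity))
    · set d := min (1 / 2) (min (1 / (16 * B + 32)) (δ / (5 * B + 5))) with hd
      have h1 : d ≤ 1 / (16 * B + 32) := (min_le_right _ _).trans (min_le_left _ _)
      have h2 : d * B ≤ 1 / (16 * B + 32) * B := mul_le_mul_of_nonneg_right h1 hB0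
      have h3 : 1 / (16 * B + 32) * B < 1 / 16 := by
        rw [div_mul_eq_mul_div, div_lt_div_iff₀ (by positivity) (by norm_num)]
        nlinarith
      linarith
    · set d := min (1 / 2) (min (1 / (16 * B + 32)) (δ / (5 * B + 5))) with hd
      have h1 : d ≤ δ / (5 * B + 5) := (min_le_right _ _).trans (min_le_right _ _)
      have h2 : d * B ≤ δ / (5 * B + 5) * B := mul_le_mul_of_nonneg_right h1 hB0
      have h3 : δ / (5 * B + 5) * B ≤ δ / 5 := by
        rw [div_mul_eq_mul_div, div_le_div_iff₀ (by positivity) (by norm_num)]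
        nlinarith
      linarith
  set Ed : W → ℝ := fun x => (1 - d) * E x + d * E1 x with hEd
  have hEdE : ∀ x ∈ c.S, |Ed x - E x| ≤ d * B := by
    intro x hx
    have e1 : Ed x - E x = d * (E1 x - E x) := by rw [hEd]; ring
    rw [e1, abs_mul, abs_of_pos hd0]
    exact mul_le_mul_of_nonneg_left (hB x hx) hd0.le
  -- robustness on the cube
  have hrob : ∀ u : ZMod 3 → ℝ, (∀ i, |u i| ≤ 1 / 4) → Rob c (up Ed lab u) := by
    intro u hu
    obtain ⟨M, hM⟩ := hval (fun i => u i / (1 - d)) (by
      intro i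
      rw [abs_div, abs_of_pos (by linarith : (0 : ℝ) < 1 - d), div_le_iff₀ (by linarith)]
      have := hu i
      linarith)
    have := hE1 _ M hM d hd0 (by linarith)
    have e : (fun x => (1 - d) * up E lab (fun i => u i / (1 - d)) x + d * E1 x) =
        up Ed lab u := by
      funext x
      unfold up
      rw [hEd]
      have : (1 - d) ≠ 0 := by linarith
      field_simp
      ring
    rwa [e] at this
  set F : (ZMod 3 → ℝ) → ℝ := fun u => vt col c (up Ed lab u) with hF
  have hclose : ∀ u : ZMod 3 → ℝ, (∀ i, |u i| ≤ 1 / 4) → vt col c (up E lab u) ≤ F u + d * B := by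
    intro u hu
    obtain ⟨M, hM⟩ := (hrob u hu).valid
    obtain ⟨M', hM'⟩ := hval u (fun i => (hu i).trans (by norm_num))
    refine vt_lip hg hcol hM hM' fun x hx => ?_
    have := abs_le.1 (hEdE x hx)
    unfold up; linarith [this.1]
  have hF0 : F (fun _ => 0) ≤ vt col c E + d * B := by
    obtain ⟨M, hM⟩ := (hrob (fun _ => 0) (by intro i; simp)).valid
    refine vt_lip hg hcol hv0 hM fun x hx => ?_
    have := abs_le.1 (hEdE x hx)
    unfold up; linarith [this.2]
  -- the lower bound
  have hOR : ∀ u : ZMod 3 → ℝ, (∀ i, |u i| ≤ 1 / 4) → ∀ i,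
      vt col c E + u i ≤ vt col c (up E lab u) := by
    intro u hu i
    have hui := abs_le.1 (hu i)
    have habs : ∀ τ : ℝ, 0 ≤ τ → τ ≤ 1 / 2 → ∀ j, |ee i τ j| ≤ 1 / 2 := by
      intro τ h0 h1 j
      unfold ee; split_ifs
      · rw [abs_of_nonneg h0]; exact h1
      · simp
    obtain ⟨M1, hM1⟩ := hval (ee i (u i + 1 / 4)) (habs _ (by linarith [hui.1]) (by linarith [hui.2]))
    obtain ⟨M2, hM2⟩ := hval (ee i (1 / 2)) (habs _ (by norm_num) le_rfl)
    obtain ⟨M3, hM3⟩ := hval u (fun i => (hu i).trans (by norm_num))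
    have h1 : vt col c (up E lab (ee i (1 / 2))) ≤
        vt col c (up E lab (ee i (u i + 1 / 4))) + (1 / 2 - (u i + 1 / 4)) := by
      refine vt_lip hg hcol hM1 hM2 fun x _ => ?_
      unfold up ee; split_ifs <;> linarith [hui.1, hui.2]
    have h2 : vt col c (up E lab (ee i (u i + 1 / 4))) ≤ vt col c (up E lab u) + 1 / 4 := by
      refine vt_lip hg hcol hM3 hM1 fun x _ => ?_
      unfold up ee
      split_ifs with h
      · rw [h]; linarith
      · have := abs_le.1 (hu (lab x)); linarith [this.1]
    rw [hor i] at h1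
    linarith
  -- the maximum
  have hlip : ∀ u v : ZMod 3 → ℝ, (∀ i, |u i| ≤ 1 / 4) → (∀ i, |v i| ≤ 1 / 4) →
      F u ≤ F v + dist u v := by
    intro u v hu hv
    obtain ⟨M, hM⟩ := (hrob u hu).valid
    obtain ⟨M', hM'⟩ := (hrob v hv).valid
    refine vt_lip hg hcol hM' hM fun x _ => ?_
    have h1 := dist_le_pi_dist u v (lab x)
    rw [Real.dist_eq] at h1
    have := (abs_le.1 h1).2
    unfold up; linarith
  set Q : Set (ZMod 3 → ℝ) := Metric.closedBall 0 (1 / 4) with hQ
  have hQm : ∀ u, u ∈ Q ↔ ∀ i, |u i| ≤ 1 / 4 := by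
    intro u
    rw [hQ, mem_closedBall_zero_iff, pi_norm_le_iff_of_nonneg (by norm_num)]
    simp [Real.norm_eq_abs]
  have hcont : ContinuousOn F Q := by
    have : LipschitzOnWith 1 F Q := by
      refine LipschitzOnWith.of_dist_le_mul fun u hu v hv => ?_
      rw [hQm] at hu hv
      rw [Real.dist_eq, NNReal.coe_one, one_mul, abs_le]
      have h1 := hlip u v hu hv
      have h2 := hlip v u hv hu
      rw [dist_comm v u] at h2
      constructor <;> linarith
    exact this.continuousOn
  set K : Set (ZMod 3 → ℝ) := Q ∩ F ⁻¹' Set.Iic (vt col c E + d * B) with hK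
  have hKc : IsCompact K := by
    refine (isCompact_closedBall (0 : ZMod 3 → ℝ) (1 / 4)).of_isClosed_subset
      (hcont.preimage_isClosed_of_isClosed Metric.isClosed_closedBall isClosed_Iic)
      Set.inter_subset_left
  have h0K : (fun _ => 0) ∈ K := ⟨(hQm _).2 (by intro i; simp), hF0⟩
  have hsum : Continuous fun u : ZMod 3 → ℝ => ∑ i, u i := by fun_prop
  obtain ⟨u, huK, humax⟩ := hKc.exists_isMaxOn ⟨_, h0K⟩ hsum.continuousOn
  have huQ := (hQm u).1 huK.1
  have huF : F u ≤ vt col c E + d * B := huK.2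
  have hup : ∀ i, u i ≤ 2 * (d * B) := by
    intro i
    have h1 := hOR u huQ i
    have h2 := hclose u huQ
    linarith
  have hs0 : 0 ≤ ∑ i, u i := by
    have := humax h0K
    simpa using this
  have hlow : ∀ i, -(4 * (d * B)) ≤ u i := by
    intro i
    have e3 : ∑ i, u i = u 0 + u 1 + u 2 := Fin.sum_univ_three u
    rw [e3] at hs0
    have h0 := hup 0
    have h1 := hup 1
    have h2 := hup 2
    have hdB : 0 ≤ d * B := by positivity
    fin_cases i
    · show -(4 * (d * B)) ≤ u 0; linarith
    · show -(4 * (d * B)) ≤ u 1; linarith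
    · show -(4 * (d * B)) ≤ u 2; linarith
  have hdB : 0 ≤ d * B := by positivity
  refine ⟨up Ed lab u, hrob u huQ, ?_, ?_⟩
  · intro x hx
    have h1 := abs_le.1 (hEdE x hx)
    have h2 := hup (lab x)
    have h3 := hlow (lab x)
    unfold up
    rw [abs_le]
    constructor <;> linarith [h1.1, h1.2]
  · intro i
    obtain ⟨δ', hδ', hgap⟩ := exists_gap c.S (up Ed lab u) (vt col c (up Ed lab u))
    obtain ⟨ε, hε, hrb⟩ := hrob u huQ
    have hpos : 0 < 1 / 4 - 4 * (d * B) := by linarith
    refine ⟨min (min (δ' / 2) (ε / 2)) ((1 / 4 - 4 * (d * B)) / 2), by positivity, ?_⟩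
    intro s hs hs'
    have s1 : s < δ' := by
      have := hs'.trans ((min_le_left _ _).trans (min_le_left _ _)); linarith
    have s2 : s ≤ ε := by
      have := hs'.trans ((min_le_left _ _).trans (min_le_right _ _)); linarith
    have s3 : s ≤ 1 / 4 - 4 * (d * B) := by
      have := hs'.trans (min_le_right _ _); linarith
    obtain ⟨M, hM⟩ := (hrob u huQ).valid
    -- the raised phases
    have hv1 : ∃ M, c.Valid (up (up Ed lab u) lab (ee i s)) M := by
      refine hrb _ fun x _ => ?_
      unfold up ee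
      split_ifs
      · rw [show Ed x + u (lab x) + s - (Ed x + u (lab x)) = s by ring, abs_of_nonneg hs]
        exact s2
      · rw [show Ed x + u (lab x) + 0 - (Ed x + u (lab x)) = 0 by ring, abs_zero]
        exact hε.le
    have hv2 : ∃ M, c.Valid (fun x => up Ed lab u x +
        if col x = true ∧ lab x = i then s else 0) M := by
      refine hrb _ fun x _ => ?_
      split_ifs
      · rw [show up Ed lab u x + s - up Ed lab u x = s by ring, abs_of_nonneg hs]
        exact s2
      · rw [show up Ed lab u x + 0 - up Ed lab u x = 0 by ring, abs_zero]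
        exact hε.le
    obtain ⟨M1, hM1⟩ := hv1
    obtain ⟨M2, hM2⟩ := hv2
    have heq : vt col c (fun x => up Ed lab u x + if col x = true ∧ lab x = i then s else 0) =
        vt col c (up (up Ed lab u) lab (ee i s)) := by
      refine vt_indep hg hcol hM2 hM1 fun x _ hx => ?_
      unfold up ee
      by_cases h : lab x = i
      · rw [if_pos ⟨hx, h⟩, if_pos h]
      · rw [if_neg (fun h' => h h'.2), if_neg h]
    rw [heq]
    rcases hs.eq_or_lt with rfl | hspos
    · have : up (up Ed lab u) lab (ee i 0) = up Ed lab u := by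
        funext x; unfold up ee; split_ifs <;> ring
      rw [this, add_zero]
    · refine resp_of_gt hg hcol hM hM1 hgap s1 ?_ hs
      by_contra hcon
      rw [not_lt] at hcon
      -- then `u + s e_i ∈ K`
      have huu : up (up Ed lab u) lab (ee i s) = up Ed lab (fun j => u j + ee i s j) := by
        funext x; unfold up; ring
      have hmem : (fun j => u j + ee i s j) ∈ K := by
        refine ⟨(hQm _).2 fun j => ?_, ?_⟩
        · have h1 := hup j
          have h2 := hlow j
          unfold ee
          rw [abs_le]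
          split_ifs <;> constructor <;> linarith
        · show F (fun j => u j + ee i s j) ≤ _
          rw [hF]
          show vt col c (up Ed lab (fun j => u j + ee i s j)) ≤ _
          rw [← huu]
          exact hcon.trans huF
      have h1 := humax hmem
      have h2 : ∑ j, (u j + ee i s j) = ∑ j, u j + s := by
        rw [Finset.sum_add_distrib]
        congr 1
        unfold ee
        rw [Finset.sum_ite_eq' Finset.univ i]
        simp
      have h3 : ∑ j, (u j + ee i s j) ≤ ∑ j, u j := h1
      linarith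

end Vale.Agent.P040.H906
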