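import Vale.Agent.P040.H906.Sel1

/-! Selector lemma for meanders, part 2: existence, isomorphism invariance, uniqueness. -/

set_option linter.unusedVariables false
set_option linter.unusedSectionVars false

namespace Vale.Agent.P040.H906

variable {W : Type*} [LinearOrder W]

theorem cyc_inner {x z z' y : W} (h1 : Cyc x z y) (h2 : Cyc x z' y) (hne : z ≠ z') :
    (Cyc x z z' ∧ Cyc z z' y) ∨ (Cyc x z' z ∧ Cyc z' z y) := by
  unfold Cyc at *; grind

namespace Cfg

/-- the lowering step: there is a leaf of mass zero at some level `M'` at which the configuration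
is valid -/
theorem exists_leaf {c : Cfg W} (h : c.Good) {E : W → ℝ} {M : ℝ} (hv : c.Valid E M) :
    ∃ b x, c.Leaf b x ∧ c.Valid E (-(c.dl E b x)) := by
  classical
  have hne : ((Finset.univ : Finset Bool) ×ˢ c.S).Nonempty := by
    obtain ⟨x, hx⟩ := h.nonem
    exact ⟨(true, x), by simp [hx]⟩
  obtain ⟨⟨b0, x0⟩, hm0, hmin0⟩ := Finset.exists_min_image _ (fun p : Bool × W => c.dl E p.1 p.2) hne
  have hx0 : x0 ∈ c.S := (Finset.mem_product.1 hm0).2
  have hmin : ∀ b, ∀ x ∈ c.S, c.dl E b0 x0 ≤ c.dl E b x := fun b x hx =>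
    hmin0 (b, x) (by simp [hx])
  set M' := -(c.dl E b0 x0) with hM'
  have hM0 : 0 ≤ M' := by
    have := hmin b0 _ (h.mem b0 x0 hx0)
    rw [dl_inv h hx0] at this
    linarith
  have hMM : M' ≤ M := by have := hv.ge h hx0 (b := b0); linarith
  have hle : ∀ b, ∀ x ∈ c.S, c.dl E b x ≤ M' := by
    intro b x hx
    have := hmin b _ (h.mem b x hx)
    rw [dl_inv h hx] at this
    linarith
  have hvalid : c.Valid E M' := by
    intro b T hT hPD
    rcases Nat.lt_or_ge T.card 2 with h2 | h2
    · rcases Nat.lt_or_ge T.card 1 with h1 | h1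
      · have : T = ∅ := by rw [← Finset.card_eq_zero]; omega
        subst this; simp; linarith
      · obtain ⟨x, rfl⟩ := Finset.card_eq_one.1 (by omega : T.card = 1)
        have := hle b x (hT (by simp))
        simp; linarith
    · have h3 := hv b T hT hPD
      rw [Finset.sum_add_distrib, Finset.sum_const, nsmul_eq_mul] at h3 ⊢
      have h4 : (2 : ℝ) ≤ T.card := by exact_mod_cast h2
      nlinarith
  -- among the arcs of mass zero take one with fewest points inside
  set Z := ((Finset.univ : Finset Bool) ×ˢ c.S).filter (fun p => c.dl E p.1 p.2 = -M') with hZ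
  have hZne : Z.Nonempty := ⟨(b0, x0), by simp [hZ, hx0, hM']⟩
  obtain ⟨⟨b, x⟩, hbx, hbmin⟩ := Finset.exists_min_image Z
    (fun p : Bool × W => (c.S.filter (fun z => Cyc p.2 z (c.f p.1 p.2))).card) hZne
  rw [hZ, Finset.mem_filter] at hbx
  have hx : x ∈ c.S := (Finset.mem_product.1 hbx.1).2
  have hd : c.dl E b x = -M' := hbx.2
  refine ⟨b, x, ⟨hx, ?_⟩, ?_⟩
  · -- no point inside
    have key : ∀ y ∈ c.S, Cyc x y (c.f b x) → Cyc x y (c.f b y) → Cyc y (c.f b y) (c.f b x) →
        False := by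
      intro y hy h1 h2 h3
      have hfx := h.mem b x hx
      have hne1 : y ≠ c.f b x := by rintro rfl; exact not_cyc_right h1
      have hne2 : y ≠ x := by rintro rfl; exact not_cyc_left h1
      have hiy := h.inv b x hx
      have hne3 := h.ne b x hx
      have hne4 := h.ne b y hy
      have hne5 : c.f b y ≠ c.f b x := fun h4 => hne2 (h.inj hy hx h4)
      have hD : Dis (c.f b) y (c.f b x) := by
        refine ⟨?_, ?_⟩
        · rintro (h4 | h4 | h4)
          · exact hne1 h4.symm
          · exact hne5 h4.symm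
          · unfold Cyc at *; grind
        · rintro (h4 | h4 | h4)
          · exact hne1 h4
          · rw [hiy] at h4; exact hne2 h4
          · rw [hiy] at h4; unfold Cyc at *; grind
      have hfam := hvalid b {y, c.f b x} (by
          intro z hz; simp at hz; rcases hz with rfl | rfl
          · exact hy
          · exact hfx) (by
          intro z hz w hw hzw
          simp at hz hw
          rcases hz with rfl | rfl <;> rcases hw with rfl | rfl
          · exact absurd rfl hzw
          · exact hD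
          · exact hD.symm
          · exact absurd rfl hzw)
      rw [Finset.sum_pair hne1, dl_inv h hx] at hfam
      have hge := hmin b y hy
      have hdy : c.dl E b y = -M' := by linarith
      have := hbmin (b, y) (by rw [hZ, Finset.mem_filter]; simp [hy, hdy])
      simp only at this
      have hss : c.S.filter (fun z => Cyc y z (c.f b y)) ⊂ c.S.filter (fun z => Cyc x z (c.f b x)) := by
        rw [Finset.ssubset_iff_of_subset]
        · exact ⟨y, by simp [hy, h1], by simp [not_cyc_left]⟩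
        · intro z hz
          rw [Finset.mem_filter] at hz ⊢
          refine ⟨hz.1, ?_⟩
          have := hz.2
          unfold Cyc at *; grind
      exact absurd (Finset.card_lt_card hss) (not_lt.2 this)
    intro z hz hcy
    have hcy' := h.nc b x hx z hz hcy
    have hzi := h.inv b z hz
    rcases cyc_inner hcy hcy' (h.ne b z hz).symm with ⟨h1, h2⟩ | ⟨h1, h2⟩
    · exact key z hz hcy h1 h2
    · exact key _ (h.mem b z hz) hcy' (by rw [hzi]; exact h1) (by rw [hzi]; exact h2)
  · rw [hd]; simpa using hvalid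

end Cfg

/-- the colouring alternates -/
def ColOK (col : W → Bool) (c : Cfg W) : Prop := ∀ b, ∀ x ∈ c.S, col (c.f b x) = !col x

theorem ColOK.del {col : W → Bool} {c : Cfg W} (h : c.Good) (hc : ColOK col c) (b : Bool) {x : W}
    (hx : x ∈ c.S) : ColOK col (c.del b x) := by
  intro b' y hy
  rw [Cfg.mem_del] at hy
  obtain ⟨h1, h2, h3⟩ := hy
  rcases Cfg.bool_cases b b' with rfl | rfl
  · rw [Cfg.del_same]; exact hc _ _ h3
  · have e1 := hc (!b) y h3
    have e2 := hc (!b) x hx
    have e3 := hc (!b) _ (h.mem b x hx)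
    have e4 := hc b x hx
    rw [Cfg.del_other]
    split_ifs with h4 h5
    · rw [e3, e4]; rw [h4] at e1; rw [e1]
      simp
    · rw [e2]; rw [h5, e4] at e1; rw [e1]
    · exact e1

/-- the possible outcomes of pruning: the surviving point of colour `true` -/
inductive Out (E : W → ℝ) (col : W → Bool) : Cfg W → W → Prop
  | base {c : Cfg W} {a : W} : c.S.card = 2 → a ∈ c.S → col a = true → Out E col c a
  | step {c : Cfg W} {b : Bool} {x a : W} : 2 < c.S.card → c.Leaf b x →
      c.Valid E (-(c.dl E b x)) → Out E col (c.del b x) a → Out E col c a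

theorem Out.mem {E : W → ℝ} {col : W → Bool} {c : Cfg W} {a : W} (h : Out E col c a) :
    a ∈ c.S := by
  induction h with
  | base _ h _ => exact h
  | step _ _ _ _ ih => exact (Cfg.mem_del.1 ih).2.2

theorem Out.col {E : W → ℝ} {col : W → Bool} {c : Cfg W} {a : W} (h : Out E col c a) :
    col a = true := by
  induction h with
  | base _ _ h => exact h
  | step _ _ _ _ ih => exact ih

theorem two_le {c : Cfg W} (h : c.Good) : 2 ≤ c.S.card := by
  obtain ⟨x, hx⟩ := h.nonem
  have := Cfg.card_del h hx (b := true)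
  omega

theorem valid_dl {c : Cfg W} (h : c.Good) (hc : 2 < c.S.card) {b : Bool} {x : W}
    (hl : c.Leaf b x) {E : W → ℝ} (hv : c.Valid E (-(c.dl E b x))) :
    (c.del b x).Valid E (-(c.dl E b x)) :=
  Cfg.valid_del h hc hl hv (by ring)

theorem exists_out {E : W → ℝ} {col : W → Bool} : ∀ (n : ℕ) (c : Cfg W), c.S.card = n → c.Good →
    ColOK col c → ∀ M, c.Valid E M → ∃ a, Out E col c a := by
  intro n
  induction n using Nat.strong_induction_on with
  | _ n ih =>
    intro c hn hg hcol M hv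
    rcases Nat.lt_or_ge 2 c.S.card with h2 | h2
    · obtain ⟨b, x, hl, hv'⟩ := Cfg.exists_leaf hg hv
      have hcard := Cfg.card_del hg hl.1 (b := b)
      obtain ⟨a, ha⟩ := ih (c.del b x).S.card (by omega) (c.del b x) rfl (Cfg.good_del hg h2 hl)
        (hcol.del hg b hl.1) _ (valid_dl hg h2 hl hv')
      exact ⟨a, Out.step h2 hl hv' ha⟩
    · have h3 := two_le hg
      obtain ⟨x, hx⟩ := hg.nonem
      rcases hcx : col x with _ | _
      · exact ⟨c.f true x, Out.base (by omega) (hg.mem _ _ hx) (by rw [hcol _ _ hx, hcx]; rfl)⟩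
      · exact ⟨x, Out.base (by omega) hx hcx⟩

/-- isomorphisms of configurations: bijections preserving the cyclic order and the matchings -/
structure Iso {W' : Type*} [LinearOrder W'] (φ : W → W') (c : Cfg W) (c' : Cfg W') : Prop where
  map : ∀ x ∈ c.S, φ x ∈ c'.S
  surj : ∀ y ∈ c'.S, ∃ x ∈ c.S, φ x = y
  inj : ∀ x ∈ c.S, ∀ y ∈ c.S, φ x = φ y → x = y
  comm : ∀ b, ∀ x ∈ c.S, φ (c.f b x) = c'.f b (φ x)
  cyc : ∀ x ∈ c.S, ∀ y ∈ c.S, ∀ z ∈ c.S, (Cyc x y z ↔ Cyc (φ x) (φ y) (φ z))

section iso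

variable {W' : Type*} [LinearOrder W']

theorem Iso.del {φ : W → W'} {c : Cfg W} {c' : Cfg W'} (hg : c.Good) (h : Iso φ c c') (b : Bool)
    {x : W} (hx : x ∈ c.S) : Iso φ (c.del b x) (c'.del b (φ x)) := by
  have hq := hg.mem b x hx
  have cm := h.comm b x hx
  refine ⟨?_, ?_, ?_, ?_, ?_⟩
  · intro y hy
    rw [Cfg.mem_del] at hy ⊢
    refine ⟨?_, ?_, h.map _ hy.2.2⟩
    · rw [← cm]; intro he; exact hy.1 (h.inj _ hy.2.2 _ hq he)
    · intro he; exact hy.2.1 (h.inj _ hy.2.2 _ hx he)
  · intro y hy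
    rw [Cfg.mem_del] at hy
    obtain ⟨z, hz, rfl⟩ := h.surj y hy.2.2
    refine ⟨z, ?_, rfl⟩
    rw [Cfg.mem_del]
    refine ⟨?_, ?_, hz⟩
    · rintro rfl; exact hy.1 cm
    · rintro rfl; exact hy.2.1 rfl
  · intro y hy z hz
    rw [Cfg.mem_del] at hy hz
    exact h.inj y hy.2.2 z hz.2.2
  · intro b' y hy
    rw [Cfg.mem_del] at hy
    rcases Cfg.bool_cases b b' with rfl | rfl
    · rw [Cfg.del_same, Cfg.del_same]; exact h.comm _ _ hy.2.2
    · rw [Cfg.del_other, Cfg.del_other]
      have e1 := h.comm (!b) y hy.2.2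
      have e2 := h.comm (!b) x hx
      have e3 := h.comm (!b) _ hq
      have hmy := hg.mem (!b) y hy.2.2
      have i1 : c.f (!b) y = x ↔ c'.f (!b) (φ y) = φ x := by
        rw [← e1]; exact ⟨fun h1 => by rw [h1], fun h1 => h.inj _ hmy _ hx h1⟩
      have i2 : c.f (!b) y = c.f b x ↔ c'.f (!b) (φ y) = c'.f b (φ x) := by
        rw [← e1, ← cm]; exact ⟨fun h1 => by rw [h1], fun h1 => h.inj _ hmy _ hq h1⟩
      by_cases h1 : c.f (!b) y = x
      · rw [if_pos h1, if_pos (i1.1 h1), e3, cm]
      · rw [if_neg h1, if_neg (fun h3 => h1 (i1.2 h3))]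
        by_cases h2 : c.f (!b) y = c.f b x
        · rw [if_pos h2, if_pos (i2.1 h2), e2]
        · rw [if_neg h2, if_neg (fun h3 => h2 (i2.2 h3)), e1]
  · intro y hy z hz w hw
    rw [Cfg.mem_del] at hy hz hw
    exact h.cyc y hy.2.2 z hz.2.2 w hw.2.2

theorem Iso.dl {φ : W → W'} {c : Cfg W} {c' : Cfg W'} (hg : c.Good) (h : Iso φ c c')
    {E : W → ℝ} {E' : W' → ℝ} (hE : ∀ x ∈ c.S, E' (φ x) = E x) (b : Bool) {x : W}
    (hx : x ∈ c.S) : c'.dl E' b (φ x) = c.dl E b x := by
  unfold Cfg.dl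
  rw [← h.comm b x hx, hE _ hx, hE _ (hg.mem b x hx)]

theorem Iso.valid {φ : W → W'} {c : Cfg W} {c' : Cfg W'} (hg : c.Good) (h : Iso φ c c')
    {E : W → ℝ} {E' : W' → ℝ} (hE : ∀ x ∈ c.S, E' (φ x) = E x) {M : ℝ} (hv : c.Valid E M) :
    c'.Valid E' M := by
  classical
  intro b T' hT' hPD
  set T := c.S.filter (fun x => φ x ∈ T') with hT
  have hTm : ∀ x ∈ T, x ∈ c.S ∧ φ x ∈ T' := fun x hx => Finset.mem_filter.1 hx
  have hIn : ∀ x ∈ c.S, ∀ y ∈ c.S, (In (c.f b) x y ↔ In (c'.f b) (φ x) (φ y)) := by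
    intro x hx y hy
    unfold In
    rw [← h.comm b x hx, h.cyc x hx y hy _ (hg.mem b x hx)]
    constructor
    · rintro (h1 | h1 | h1)
      · left; rw [h1]
      · right; left; rw [h1]
      · right; right; exact h1
    · rintro (h1 | h1 | h1)
      · left; exact h.inj _ hy _ hx h1
      · right; left; exact h.inj _ hy _ (hg.mem b x hx) h1
      · right; right; exact h1
  have himg : T' = T.image φ := by
    ext y
    rw [Finset.mem_image]
    constructor
    · intro hy
      obtain ⟨x, hx, rfl⟩ := h.surj y (hT' hy)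
      exact ⟨x, by rw [hT, Finset.mem_filter]; exact ⟨hx, hy⟩, rfl⟩
    · rintro ⟨x, hx, rfl⟩; exact (hTm x hx).2
  have := hv b T (fun x hx => (hTm x hx).1) (by
    intro x hx y hy hxy
    have hxx := hTm x hx
    have hyy := hTm y hy
    have := hPD _ hxx.2 _ hyy.2 (fun h1 => hxy (h.inj _ hxx.1 _ hyy.1 h1))
    unfold Dis at this ⊢
    rw [hIn x hxx.1 y hyy.1, hIn y hyy.1 x hxx.1]
    exact this)
  rw [himg, Finset.sum_image (fun x hx y hy hxy => h.inj _ (hTm x hx).1 _ (hTm y hy).1 hxy)]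
  refine le_trans (le_of_eq (Finset.sum_congr rfl fun x hx => ?_)) this
  rw [h.dl hg hE b (hTm x hx).1]

theorem Iso.card {φ : W → W'} {c : Cfg W} {c' : Cfg W'} (h : Iso φ c c') :
    c'.S.card = c.S.card := by
  classical
  have : c'.S = c.S.image φ := by
    ext y; rw [Finset.mem_image]
    constructor
    · intro hy; obtain ⟨x, hx, h1⟩ := h.surj y hy; exact ⟨x, hx, h1⟩
    · rintro ⟨x, hx, rfl⟩; exact h.map x hx
  rw [this, Finset.card_image_of_injOn]
  intro x hx y hy hxy
  exact h.inj _ hx _ hy hxy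

theorem Iso.leaf {φ : W → W'} {c : Cfg W} {c' : Cfg W'} (hg : c.Good) (h : Iso φ c c') {b : Bool}
    {x : W} (hl : c.Leaf b x) : c'.Leaf b (φ x) := by
  refine ⟨h.map _ hl.1, ?_⟩
  intro z hz
  obtain ⟨w, hw, rfl⟩ := h.surj z hz
  rw [← h.comm b x hl.1, ← h.cyc _ hl.1 _ hw _ (hg.mem b x hl.1)]
  exact hl.2 w hw

theorem Iso.out {E : W → ℝ} {E' : W' → ℝ} {col : W → Bool} {col' : W' → Bool} {c : Cfg W}
    {a : W} (ho : Out E col c a) : ∀ {c' : Cfg W'} {φ : W → W'}, c.Good → Iso φ c c' →
    (∀ x ∈ c.S, E' (φ x) = E x) → (∀ x ∈ c.S, col' (φ x) = col x) → Out E' col' c' (φ a) := by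
  induction ho with
  | @base c a h1 h2 h3 =>
    intro c' φ hg h hE hc
    exact Out.base (by rw [h.card, h1]) (h.map _ h2) (by rw [hc _ h2, h3])
  | @step c b x a h1 h2 h3 h4 ih =>
    intro c' φ hg h hE hc
    have hs : ∀ y ∈ (c.del b x).S, y ∈ c.S := fun y hy => (Cfg.mem_del.1 hy).2.2
    refine Out.step (by rw [h.card]; exact h1) (h.leaf hg h2) ?_
      (ih (Cfg.good_del hg h1 h2) (h.del hg b h2.1) (fun y hy => hE y (hs y hy))
        (fun y hy => hc y (hs y hy)))
    rw [h.dl hg hE b h2.1]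
    exact h.valid hg hE h3

end iso

end Vale.Agent.P040.H906
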