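import Vale.Agent.P040.H251.SelInst

/-!
# Around the tripod lemma (helper906)

For the coloured selector `vt` (value at the survivor of colour `true`):
`vt_mem`, `vt_lip`, `vt_indep` (only the values at the points of colour `true` matter),
the dual configuration `flipc`, and the end `hex_of_no_tripod`.
-/

set_option linter.unusedSectionVars false
set_option linter.unusedVariables false

namespace Vale.Agent.P040.H906

open P040H251

variable {W : Type*} [LinearOrder W]

/-! ### basic facts -/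

theorem vt_mem {col : W → Bool} {c : Cfg W} {E : W → ℝ} {M : ℝ} (hg : c.Good)
    (hcol : ColOK col c) (hv : c.Valid E M) : ∃ p ∈ c.S, col p = true ∧ vt col c E = E p := by
  obtain ⟨a, ha⟩ := exists_out' hg hcol hv
  exact ⟨a, ha.mem, ha.col, vt_eq hg hcol ha⟩

theorem vt_mono' {col : W → Bool} {c : Cfg W} {E E' : W → ℝ} {M M' : ℝ} (hg : c.Good)
    (hcol : ColOK col c) (hv : c.Valid E M) (hv' : c.Valid E' M') (hle : ∀ x ∈ c.S, E x ≤ E' x) :
    vt col c E ≤ vt col c E' :=
  vt_mono _ c rfl hg hcol E E' M M' hv hv' hle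

theorem vt_lip {col : W → Bool} {c : Cfg W} {E E' : W → ℝ} {M M' δ : ℝ} (hg : c.Good)
    (hcol : ColOK col c) (hv : c.Valid E M) (hv' : c.Valid E' M')
    (hle : ∀ x ∈ c.S, E' x ≤ E x + δ) : vt col c E' ≤ vt col c E + δ := by
  rw [← vt_add δ hg hcol hv]
  exact vt_mono' hg hcol hv' (valid_add δ hv) hle

/-- **Only the values at the points of colour `true` matter.** -/
theorem vt_indep {col : W → Bool} {c : Cfg W} {E E' : W → ℝ} {M M' : ℝ} (hg : c.Good)
    (hcol : ColOK col c) (hv : c.Valid E M) (hv' : c.Valid E' M')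
    (heq : ∀ x ∈ c.S, col x = true → E x = E' x) : vt col c E = vt col c E' := by
  classical
  set g : ℝ → ℝ := fun t => vt col c (sgm E E' t) with hgdef
  obtain ⟨B, hB0, hB⟩ : ∃ B : ℝ, 0 ≤ B ∧ ∀ x ∈ c.S, |E x - E' x| ≤ B := by
    refine ⟨∑ x ∈ c.S, |E x - E' x|, Finset.sum_nonneg fun _ _ => abs_nonneg _, fun x hx => ?_⟩
    exact Finset.single_le_sum (f := fun x => |E x - E' x|) (fun _ _ => abs_nonneg _) hx
  have hvt : ∀ t ∈ Set.Icc (0 : ℝ) 1, c.Valid (sgm E E' t) ((1 - t) * M + t * M') :=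
    fun t ht => valid_sgm ht.1 ht.2 hv hv'
  have hlip : ∀ s ∈ Set.Icc (0 : ℝ) 1, ∀ t ∈ Set.Icc (0 : ℝ) 1, g s ≤ g t + B * |s - t| := by
    intro s hs t ht
    refine vt_lip hg hcol (hvt t ht) (hvt s hs) fun x hx => ?_
    have h1 : sgm E E' s x - sgm E E' t x = -(s - t) * (E x - E' x) := by unfold sgm; ring
    have h2 : |sgm E E' s x - sgm E E' t x| ≤ B * |s - t| := by
      rw [h1, abs_mul, abs_neg, mul_comm]
      exact mul_le_mul_of_nonneg_right (hB x hx) (abs_nonneg _)
    have := (abs_le.1 h2).2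
    linarith
  have hcont : ContinuousOn g (Set.Icc 0 1) := by
    have : LipschitzOnWith (Real.toNNReal B) g (Set.Icc 0 1) := by
      refine LipschitzOnWith.of_dist_le_mul fun s hs t ht => ?_
      rw [Real.dist_eq, Real.dist_eq, Real.coe_toNNReal B hB0, abs_le]
      have h1 := hlip s hs t ht
      have h2 := hlip t ht s hs
      rw [abs_sub_comm t s] at h2
      constructor <;> linarith
    exact this.continuousOn
  have hfin : (g '' Set.Icc 0 1).Finite := by
    refine Set.Finite.subset ((c.S.finite_toSet).image E) ?_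
    rintro _ ⟨t, ht, rfl⟩
    obtain ⟨p, hp, hc, he⟩ := vt_mem hg hcol (hvt t ht)
    refine ⟨p, hp, ?_⟩
    show E p = g t
    rw [hgdef]
    show E p = vt col c (sgm E E' t)
    rw [he]
    unfold sgm
    rw [← heq p hp hc]; ring
  have e0 : g 0 = vt col c E := by rw [hgdef]; show vt col c (sgm E E' 0) = _; rw [sgm_zero]
  have e1 : g 1 = vt col c E' := by rw [hgdef]; show vt col c (sgm E E' 1) = _; rw [sgm_one]
  rw [← e0, ← e1]
  rcases lt_trichotomy (g 0) (g 1) with h | h | h
  · exact absurd (hfin.subset (intermediate_value_Icc zero_le_one hcont)) (Set.Icc_infinite h)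
  · exact h
  · exact absurd (hfin.subset (intermediate_value_Icc' zero_le_one hcont)) (Set.Icc_infinite h)

/-! ### the dual configuration -/

/-- the two pages exchanged -/
def flipc (c : Cfg W) : Cfg W where
  S := c.S
  f := fun b => c.f (!b)

theorem flipc_dl (c : Cfg W) (E : W → ℝ) (b : Bool) (x : W) :
    (flipc c).dl (fun y => - E y) b x = c.dl E (!b) x := by
  unfold Cfg.dl
  rw [sg_not]
  show sg b * (- E (c.f (!b) x) - - E x) = - sg b * (E (c.f (!b) x) - E x)
  ring

theorem flipc_valid {c : Cfg W} {E : W → ℝ} {M : ℝ} (h : c.Valid E M) :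
    (flipc c).Valid (fun y => - E y) M := by
  intro b T hT hPD
  have := h (!b) T hT hPD
  simpa only [flipc_dl] using this

theorem flipc_good {c : Cfg W} (h : c.Good) : (flipc c).Good where
  mem := fun b x hx => h.mem (!b) x hx
  inv := fun b x hx => h.inv (!b) x hx
  ne := fun b x hx => h.ne (!b) x hx
  nc := fun b x hx y hy => h.nc (!b) x hx y hy
  conn := by
    intro A hA hne hcl
    refine h.conn A hA hne fun b x hx => ?_
    have := hcl (!b) x hx
    show c.f b x ∈ A
    have e : (flipc c).f (!b) x = c.f b x := by show c.f (!(!b)) x = _; rw [Bool.not_not]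
    rwa [e] at this
  nonem := h.nonem

theorem flipc_colOK {col : W → Bool} {c : Cfg W} (h : ColOK col c) : ColOK col (flipc c) :=
  fun b x hx => h (!b) x hx

theorem flipc_leaf {c : Cfg W} {b : Bool} {x : W} (h : c.Leaf b x) : (flipc c).Leaf (!b) x := by
  refine ⟨h.1, ?_⟩
  intro z hz
  have := h.2 z hz
  show ¬ Cyc x z (c.f (!(!b)) x)
  rwa [Bool.not_not]

theorem flipc_del (c : Cfg W) (b : Bool) (x : W) :
    (flipc c).del (!b) x = flipc (c.del b x) := by
  unfold Cfg.del flipc
  simp only [Cfg.mk.injEq, Bool.not_not, true_and]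
  funext b' y
  cases b <;> cases b' <;> rfl

theorem flipc_out {col : W → Bool} {c : Cfg W} {E : W → ℝ} {a : W} (h : Out E col c a) :
    Out (fun y => - E y) col (flipc c) a := by
  induction h with
  | base h1 h2 h3 => exact Out.base h1 h2 h3
  | @step c b x a h1 h2 h3 _ ih =>
    refine Out.step (b := !b) (x := x) h1 (flipc_leaf h2) ?_ ?_
    · rw [flipc_dl, Bool.not_not]; exact flipc_valid h3
    · rw [flipc_del]; exact ih

theorem vt_flipc {col : W → Bool} {c : Cfg W} {E : W → ℝ} {M : ℝ} (hg : c.Good)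
    (hcol : ColOK col c) (hv : c.Valid E M) :
    vt col (flipc c) (fun y => - E y) = - vt col c E := by
  obtain ⟨a, ha⟩ := exists_out' hg hcol hv
  rw [vt_eq hg hcol ha, vt_eq (flipc_good hg) (flipc_colOK hcol) (flipc_out ha)]

/-! ### the end -/

/-- the phase raised by `u i` on the arc `i` -/
def up (E : W → ℝ) (lab : W → ZMod 3) (u : ZMod 3 → ℝ) : W → ℝ := fun x => E x + u (lab x)

/-- the vector `t e_i` -/
def ee (i : ZMod 3) (t : ℝ) : ZMod 3 → ℝ := fun j => if j = i then t else 0

theorem up_zero (E : W → ℝ) (lab : W → ZMod 3) : up E lab (fun _ => 0) = E := by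
  funext x; simp [up]

/-- **The end**: without a tripod (`max` or `min` of the three arcs) the sum is `≤ 1`. -/
theorem hex_of_no_tripod {col : W → Bool} {c : Cfg W} {E : W → ℝ} {lab : W → ZMod 3} {κ : ℝ}
    (hg : c.Good) (hcol : ColOK col c)
    (hval : ∀ u : ZMod 3 → ℝ, (∀ i, |u i| ≤ 1 / 2) → ∃ M, c.Valid (up E lab u) M)
    (hlat : ∀ p ∈ c.S, col p = true → ∃ n : ℤ, E p = κ + n / 2)
    (hor : ¬ ∀ i, vt col c (up E lab (ee i (1 / 2))) = vt col c E + 1 / 2)
    (hand : ¬ ∀ i, vt col c (up E lab (ee i (-(1 / 2)))) = vt col c E - 1 / 2) :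
    ∑ i, (vt col c (up E lab (ee i (1 / 2))) - vt col c (up E lab (ee i (-(1 / 2))))) ≤ 1 := by
  obtain ⟨M0, hv0'⟩ := hval (fun _ => 0) (by intro i; simp)
  have hv0 : c.Valid E M0 := by rwa [up_zero] at hv0'
  have hee : ∀ (i : ZMod 3) (t : ℝ), |t| ≤ 1 / 2 → ∀ j, |ee i t j| ≤ 1 / 2 := by
    intro i t ht j
    unfold ee
    split_ifs
    · exact ht
    · simp
  have hhalf : |(1 / 2 : ℝ)| ≤ 1 / 2 := by rw [abs_of_pos] <;> norm_num
  have hhalf' : |(-(1 / 2) : ℝ)| ≤ 1 / 2 := by rw [abs_neg]; exact hhalf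
  obtain ⟨p0, hp0, hc0, he0⟩ := vt_mem hg hcol hv0
  obtain ⟨n0, hn0⟩ := hlat p0 hp0 hc0
  -- the six values
  have hA : ∀ i, vt col c (up E lab (ee i (1 / 2))) = vt col c E ∨
      vt col c (up E lab (ee i (1 / 2))) = vt col c E + 1 / 2 := by
    intro i
    obtain ⟨M, hv⟩ := hval _ (hee i _ hhalf)
    obtain ⟨p, hp, hc, he⟩ := vt_mem hg hcol hv
    obtain ⟨n, hn⟩ := hlat p hp hc
    have h1 : vt col c E ≤ vt col c (up E lab (ee i (1 / 2))) := by
      refine vt_mono' hg hcol hv0 hv fun x _ => ?_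
      unfold up ee; split_ifs <;> linarith
    have h2 : vt col c (up E lab (ee i (1 / 2))) ≤ vt col c E + 1 / 2 := by
      refine vt_lip hg hcol hv0 hv fun x _ => ?_
      unfold up ee; split_ifs <;> linarith
    obtain ⟨k, hk⟩ : ∃ k : ℤ, vt col c (up E lab (ee i (1 / 2))) - vt col c E = k / 2 := by
      rw [he, he0, hn0]
      unfold up ee
      split_ifs
      · exact ⟨n - n0 + 1, by rw [hn]; push_cast; ring⟩
      · exact ⟨n - n0, by rw [hn]; push_cast; ring⟩
    have k1 : (0 : ℝ) ≤ k := by linarith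
    have k2 : (k : ℝ) ≤ 1 := by linarith
    have k1' : (0 : ℤ) ≤ k := by exact_mod_cast k1
    have k2' : k ≤ 1 := by exact_mod_cast k2
    rcases (by omega : k = 0 ∨ k = 1) with rfl | rfl
    · left; push_cast at hk; linarith
    · right; push_cast at hk; linarith
  have hB : ∀ i, vt col c (up E lab (ee i (-(1 / 2)))) = vt col c E ∨
      vt col c (up E lab (ee i (-(1 / 2)))) = vt col c E - 1 / 2 := by
    intro i
    obtain ⟨M, hv⟩ := hval _ (hee i _ hhalf')
    obtain ⟨p, hp, hc, he⟩ := vt_mem hg hcol hv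
    obtain ⟨n, hn⟩ := hlat p hp hc
    have h1 : vt col c (up E lab (ee i (-(1 / 2)))) ≤ vt col c E := by
      refine vt_mono' hg hcol hv hv0 fun x _ => ?_
      unfold up ee; split_ifs <;> linarith
    have h2 : vt col c E ≤ vt col c (up E lab (ee i (-(1 / 2)))) + 1 / 2 := by
      refine vt_lip hg hcol hv hv0 fun x _ => ?_
      unfold up ee; split_ifs <;> linarith
    obtain ⟨k, hk⟩ : ∃ k : ℤ, vt col c E - vt col c (up E lab (ee i (-(1 / 2)))) = k / 2 := by
      rw [he, he0, hn0]
      unfold up ee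
      split_ifs
      · exact ⟨n0 - n + 1, by rw [hn]; push_cast; ring⟩
      · exact ⟨n0 - n, by rw [hn]; push_cast; ring⟩
    have k1 : (0 : ℝ) ≤ k := by linarith
    have k2 : (k : ℝ) ≤ 1 := by linarith
    have k1' : (0 : ℤ) ≤ k := by exact_mod_cast k1
    have k2' : k ≤ 1 := by exact_mod_cast k2
    rcases (by omega : k = 0 ∨ k = 1) with rfl | rfl
    · left; push_cast at hk; linarith
    · right; push_cast at hk; linarith
  -- up at `i` and down at `j` is impossible for `i ≠ j`
  have hAB : ∀ i j, i ≠ j → vt col c (up E lab (ee i (1 / 2))) = vt col c E + 1 / 2 →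
      vt col c (up E lab (ee j (-(1 / 2)))) = vt col c E - 1 / 2 → False := by
    intro i j hij h1 h2
    obtain ⟨M1, hv1⟩ := hval _ (hee i _ hhalf)
    obtain ⟨M2, hv2⟩ := hval _ (hee j _ hhalf')
    have h3 := vt_add (1 / 2) hg hcol hv2
    have h4 : vt col c (up E lab (ee i (1 / 2))) ≤
        vt col c (fun y => up E lab (ee j (-(1 / 2))) y + 1 / 2) := by
      refine vt_mono' hg hcol hv1 (valid_add _ hv2) fun x _ => ?_
      unfold up ee
      split_ifs with h5 h6
      · exact absurd (h5.symm.trans h6) hij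
      · linarith
      · linarith
      · linarith
    rw [h3, h1, h2] at h4
    linarith
  have e3 : ∀ F : ZMod 3 → ℝ, ∑ i, F i = F 0 + F 1 + F 2 := by
    intro F
    exact Fin.sum_univ_three F
  rw [e3]
  have hall : ∀ P : ZMod 3 → Prop, (∀ i, P i) ↔ P 0 ∧ P 1 ∧ P 2 := by
    intro P
    constructor
    · intro h; exact ⟨h 0, h 1, h 2⟩
    · rintro ⟨h0, h1, h2⟩ i
      fin_cases i
      · exact h0
      · exact h1
      · exact h2
  rw [hall] at hor hand
  have n01 : (0 : ZMod 3) ≠ 1 := by decide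
  have n02 : (0 : ZMod 3) ≠ 2 := by decide
  have n12 : (1 : ZMod 3) ≠ 2 := by decide
  have q01 := hAB 0 1 n01
  have q10 := hAB 1 0 n01.symm
  have q02 := hAB 0 2 n02
  have q20 := hAB 2 0 n02.symm
  have q12 := hAB 1 2 n12
  have q21 := hAB 2 1 n12.symm
  have a0 := hA 0
  have a1 := hA 1
  have a2 := hA 2
  have b0 := hB 0
  have b1 := hB 1
  have b2 := hB 2
  generalize vt col c (up E lab (ee 0 (1 / 2))) = A0 at *
  generalize vt col c (up E lab (ee 1 (1 / 2))) = A1 at *
  generalize vt col c (up E lab (ee 2 (1 / 2))) = A2 at *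
  generalize vt col c (up E lab (ee 0 (-(1 / 2)))) = B0 at *
  generalize vt col c (up E lab (ee 1 (-(1 / 2)))) = B1 at *
  generalize vt col c (up E lab (ee 2 (-(1 / 2)))) = B2 at *
  rcases a0 with a0 | a0 <;> rcases a1 with a1 | a1 <;> rcases a2 with a2 | a2 <;>
    rcases b0 with b0 | b0 <;> rcases b1 with b1 | b1 <;> rcases b2 with b2 | b2 <;>
    first
      | linarith
      | exact (q01 a0 b1).elim
      | exact (q10 a1 b0).elim
      | exact (q02 a0 b2).elim
      | exact (q20 a2 b0).elim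
      | exact (q12 a1 b2).elim
      | exact (q21 a2 b1).elim
      | exact (hor ⟨a0, a1, a2⟩).elim
      | exact (hand ⟨b0, b1, b2⟩).elim

end Vale.Agent.P040.H906
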