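import Vale.Agent.P040.H906.TriF

/-!
# From the centre (weakly valid) to a robust phase, form with valid phases prescribed only at the
coloured points (helper906; interface of helper710, note 13252)
-/

set_option linter.unusedSectionVars false
set_option linter.unusedVariables false

namespace Vale.Agent.P040.H906

open P040H251 H587

variable {W : Type*} [LinearOrder W]

theorem vt_continuousOn {col : W → Bool} {c : Cfg W} {E E' : W → ℝ} {M M' : ℝ} (hg : c.Good)
    (hcol : ColOK col c) (hv : c.Valid E M) (hv' : c.Valid E' M') :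
    ContinuousOn (fun t => vt col c (sgm E E' t)) (Set.Icc 0 1) := by
  obtain ⟨B, hB0, hB⟩ := exists_bound c.S E E'
  have hvt : ∀ t ∈ Set.Icc (0 : ℝ) 1, c.Valid (sgm E E' t) ((1 - t) * M + t * M') :=
    fun t ht => valid_sgm ht.1 ht.2 hv hv'
  have hlip : ∀ s ∈ Set.Icc (0 : ℝ) 1, ∀ t ∈ Set.Icc (0 : ℝ) 1,
      vt col c (sgm E E' s) ≤ vt col c (sgm E E' t) + B * |s - t| := by
    intro s hs t ht
    refine vt_lip hg hcol (hvt t ht) (hvt s hs) fun x hx => ?_
    have h1 : sgm E E' s x - sgm E E' t x = -(s - t) * (E x - E' x) := by unfold sgm; ring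
    have h2 : |sgm E E' s x - sgm E E' t x| ≤ B * |s - t| := by
      rw [h1, abs_mul, abs_neg, mul_comm]
      exact mul_le_mul_of_nonneg_right (hB x hx) (abs_nonneg _)
    have := (abs_le.1 h2).2
    linarith
  have : LipschitzOnWith (Real.toNNReal B) (fun t => vt col c (sgm E E' t)) (Set.Icc 0 1) := by
    refine LipschitzOnWith.of_dist_le_mul fun s hs t ht => ?_
    rw [Real.dist_eq, Real.dist_eq, Real.coe_toNNReal B hB0, abs_le]
    have h1 := hlip s hs t ht
    have h2 := hlip t ht s hs
    rw [abs_sub_comm t s] at h2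
    constructor <;> linarith
  exact this.continuousOn

/-- monotone in the values at the points of colour `true` only -/
theorem vt_monoc {col : W → Bool} {c : Cfg W} {E E' : W → ℝ} {M M' : ℝ} (hg : c.Good)
    (hcol : ColOK col c) (hv : c.Valid E M) (hv' : c.Valid E' M')
    (hle : ∀ x ∈ c.S, col x = true → E x ≤ E' x) : vt col c E ≤ vt col c E' := by
  classical
  have hc := vt_continuousOn hg hcol hv hv'
  have hvt : ∀ t ∈ Set.Icc (0 : ℝ) 1, c.Valid (sgm E E' t) ((1 - t) * M + t * M') :=
    fun t ht => valid_sgm ht.1 ht.2 hv hv'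
  let ι := {p : W // p ∈ c.S.filter (fun p => col p = true)}
  have hpc : ∀ p : W, Continuous fun t : ℝ => sgm E E' t p := by
    intro p; unfold sgm; fun_prop
  have key := Vale.Agent.P040.H457.mono_of_cover
    (fun p : ι => Set.Icc (0 : ℝ) 1 ∩
      (fun t => vt col c (sgm E E' t) - sgm E E' t p.1) ⁻¹' {0})
    (fun p => (hc.sub (hpc p.1).continuousOn).preimage_isClosed_of_isClosed isClosed_Icc
      isClosed_singleton)
    (by
      intro t ht
      obtain ⟨p, hp, hcp, he⟩ := vt_mem hg hcol (hvt t ht)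
      refine ⟨⟨p, Finset.mem_filter.2 ⟨hp, hcp⟩⟩, ht, ?_⟩
      show vt col c (sgm E E' t) - sgm E E' t p = 0
      rw [he, sub_self])
    (fun t => vt col c (sgm E E' t))
    (by
      rintro ⟨p, hp⟩ s hs t ht hsT htT hst
      have h1 : vt col c (sgm E E' s) - sgm E E' s p = 0 := hsT.2
      have h2 : vt col c (sgm E E' t) - sgm E E' t p = 0 := htT.2
      obtain ⟨hpS, hpc⟩ := Finset.mem_filter.1 hp
      have h3 := hle p hpS hpc
      show vt col c (sgm E E' s) ≤ vt col c (sgm E E' t)
      have h4 : sgm E E' s p ≤ sgm E E' t p := by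
        unfold sgm; nlinarith
      linarith)
  have k2 : vt col c (sgm E E' 0) ≤ vt col c (sgm E E' 1) := key
  rw [sgm_zero, sgm_one] at k2
  exact k2

theorem vt_lipc {col : W → Bool} {c : Cfg W} {E E' : W → ℝ} {M M' δ : ℝ} (hg : c.Good)
    (hcol : ColOK col c) (hv : c.Valid E M) (hv' : c.Valid E' M')
    (hle : ∀ x ∈ c.S, col x = true → E' x ≤ E x + δ) : vt col c E' ≤ vt col c E + δ := by
  rw [← vt_add δ hg hcol hv]
  exact vt_monoc hg hcol hv' (valid_add δ hv) hle

theorem valid_smul {c : Cfg W} {E : W → ℝ} {M a : ℝ} (hv : c.Valid E M) (ha : 0 ≤ a) :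
    c.Valid (fun x => a * E x) (a * M) := by
  intro b T hT hPD
  have k := mul_le_mul_of_nonneg_left (hv b T hT hPD) ha
  have e : ∑ x ∈ T, (a * M + c.dl (fun x => a * E x) b x) = a * ∑ x ∈ T, (M + c.dl E b x) := by
    rw [Finset.mul_sum]
    refine Finset.sum_congr rfl fun x _ => ?_
    unfold Cfg.dl; ring
  rw [e]; linarith

theorem valid_sum2 {c : Cfg W} {E G : W → ℝ} {M M' : ℝ} (hv : c.Valid E M) (hv' : c.Valid G M') :
    c.Valid (fun x => E x + G x) (M + M') := by
  intro b T hT hPD
  have k0 := hv b T hT hPD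
  have k1 := hv' b T hT hPD
  have e : ∑ x ∈ T, (M + M' + c.dl (fun x => E x + G x) b x) =
      ∑ x ∈ T, (M + c.dl E b x) + ∑ x ∈ T, (M' + c.dl G b x) := by
    rw [← Finset.sum_add_distrib]
    refine Finset.sum_congr rfl fun x _ => ?_
    unfold Cfg.dl; ring
  rw [e]; linarith

/-- `G` agrees at the coloured points with `E` raised by `u` on the arcs -/
def Agr (col : W → Bool) (c : Cfg W) (E : W → ℝ) (lab : W → ZMod 3) (u : ZMod 3 → ℝ)
    (G : W → ℝ) : Prop :=
  ∀ x ∈ c.S, col x = true → G x = E x + u (lab x)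

/-- **(F)**, general form -/
theorem exists_rob_or_gen {col : W → Bool} {c : Cfg W} {E : W → ℝ} {M0 r : ℝ} {lab : W → ZMod 3}
    (hg : c.Good) (hcol : ColOK col c) (hv0 : c.Valid E M0) (hr : 0 < r)
    (hval : ∀ u : ZMod 3 → ℝ, (∀ i, |u i| ≤ r) → ∃ G M, c.Valid G M ∧ Agr col c E lab u G)
    (hlow : ∀ u : ZMod 3 → ℝ, (∀ i, |u i| ≤ r) → ∀ G M, c.Valid G M → Agr col c E lab u G →
      ∀ i, vt col c E + u i ≤ vt col c G) :
    ∀ δ : ℝ, 0 < δ → ∃ E' : W → ℝ, Rob c E' ∧ (∀ x ∈ c.S, col x = true → |E' x - E x| ≤ δ) ∧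
      ∀ i, ∃ s0 : ℝ, 0 < s0 ∧ ∀ s, 0 ≤ s → s ≤ s0 →
        vt col c (fun x => E' x + if col x = true ∧ lab x = i then s else 0) =
          vt col c E' + s := by
  classical
  intro δ hδ
  obtain ⟨E1, hE1⟩ := exists_rob hg
  obtain ⟨B, hB0, hB⟩ := exists_bound c.S E1 E
  obtain ⟨d, hd0, hd1, hd2, hd3⟩ : ∃ d : ℝ, 0 < d ∧ d ≤ 1 / 2 ∧ 4 * (d * B) < r / 2 ∧
      5 * (d * B) ≤ δ := by
    refine ⟨min (1 / 2) (min (r / (16 * B + 32)) (δ / (5 * B + 5))), ?_, min_le_left _ _, ?_, ?_⟩
    · refine lt_min (by norm_num) (lt_min (by positivity) (by positivity))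
    · set d := min (1 / 2) (min (r / (16 * B + 32)) (δ / (5 * B + 5))) with hd
      have h1 : d ≤ r / (16 * B + 32) := (min_le_right _ _).trans (min_le_left _ _)
      have h2 : d * B ≤ r / (16 * B + 32) * B := mul_le_mul_of_nonneg_right h1 hB0
      have h3 : r / (16 * B + 32) * B < r / 8 := by
        rw [div_mul_eq_mul_div, div_lt_div_iff₀ (by positivity) (by norm_num)]
        nlinarith
      linarith
    · set d := min (1 / 2) (min (r / (16 * B + 32)) (δ / (5 * B + 5))) with hd
      have h1 : d ≤ δ / (5 * B + 5) := (min_le_right _ _).trans (min_le_right _ _)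
      have h2 : d * B ≤ δ / (5 * B + 5) * B := mul_le_mul_of_nonneg_right h1 hB0
      have h3 : δ / (5 * B + 5) * B ≤ δ / 5 := by
        rw [div_mul_eq_mul_div, div_le_div_iff₀ (by positivity) (by norm_num)]
        nlinarith
      linarith
  have hd1' : (0 : ℝ) < 1 - d := by linarith
  have hdB : 0 ≤ d * B := by positivity
  -- robust phases over the cube
  have hH : ∀ u : ZMod 3 → ℝ, (∀ i, |u i| ≤ r / 2) → ∃ H : W → ℝ, Rob c H ∧
      ∀ x ∈ c.S, col x = true → H x = (1 - d) * E x + d * E1 x + u (lab x) := by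
    intro u hu
    obtain ⟨G, M, hG, hA⟩ := hval (fun i => u i / (1 - d)) (by
      intro i
      rw [abs_div, abs_of_pos hd1', div_le_iff₀ hd1']
      have := hu i
      nlinarith)
    refine ⟨fun x => (1 - d) * G x + d * E1 x, hE1 _ M hG d hd0 (by linarith), ?_⟩
    intro x hx hc
    show (1 - d) * G x + d * E1 x = _
    rw [hA x hx hc]
    field_simp
    ring
  choose! H hH1 hH2 using hH
  have hEdE : ∀ x ∈ c.S, |((1 - d) * E x + d * E1 x) - E x| ≤ d * B := by
    intro x hx
    have e1 : ((1 - d) * E x + d * E1 x) - E x = d * (E1 x - E x) := by ring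
    rw [e1, abs_mul, abs_of_pos hd0]
    exact mul_le_mul_of_nonneg_left (hB x hx) hd0.le
  set F : (ZMod 3 → ℝ) → ℝ := fun u => vt col c (H u) with hF
  have hclose : ∀ u : ZMod 3 → ℝ, (∀ i, |u i| ≤ r / 2) → ∀ i,
      vt col c E + u i ≤ F u + d * B := by
    intro u hu i
    obtain ⟨M, hM⟩ := (hH1 u hu).valid
    have hu' : ∀ i, |u i| ≤ r := fun i => (hu i).trans (by linarith)
    obtain ⟨G, M', hG, hA⟩ := hval u hu'
    have h1 := hlow u hu' G M' hG hA i
    have h2 : vt col c G ≤ vt col c (H u) + d * B := by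
      refine vt_lipc hg hcol hM hG fun x hx hc => ?_
      have := abs_le.1 (hEdE x hx)
      rw [hA x hx hc, hH2 u hu x hx hc]; linarith [this.1]
    show vt col c E + u i ≤ vt col c (H u) + d * B
    linarith
  have h0r : ∀ i : ZMod 3, |(fun _ : ZMod 3 => (0 : ℝ)) i| ≤ r / 2 := by
    intro i; simp only [abs_zero]; linarith
  have hF0 : F (fun _ => 0) ≤ vt col c E + d * B := by
    obtain ⟨M, hM⟩ := (hH1 _ h0r).valid
    refine vt_lipc hg hcol hv0 hM fun x hx hc => ?_
    have := abs_le.1 (hEdE x hx)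
    rw [hH2 _ h0r x hx hc]; linarith [this.2]
  have hlip : ∀ u v : ZMod 3 → ℝ, (∀ i, |u i| ≤ r / 2) → (∀ i, |v i| ≤ r / 2) →
      F u ≤ F v + dist u v := by
    intro u v hu hv
    obtain ⟨M, hM⟩ := (hH1 u hu).valid
    obtain ⟨M', hM'⟩ := (hH1 v hv).valid
    refine vt_lipc hg hcol hM' hM fun x hx hc => ?_
    have h1 := dist_le_pi_dist u v (lab x)
    rw [Real.dist_eq] at h1
    have := (abs_le.1 h1).2
    rw [hH2 u hu x hx hc, hH2 v hv x hx hc]; linarith
  set Q : Set (ZMod 3 → ℝ) := Metric.closedBall 0 (r / 2) with hQ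
  have hQm : ∀ u, u ∈ Q ↔ ∀ i, |u i| ≤ r / 2 := by
    intro u
    rw [hQ, mem_closedBall_zero_iff, pi_norm_le_iff_of_nonneg (by linarith)]
    simp [Real.norm_eq_abs]
  have hcont : ContinuousOn F Q := by
    have : LipschitzOnWith 1 F Q := by
      refine LipschitzOnWith.of_dist_le_mul fun u hu v hv => ?_
      rw [hQm] at hu hv
      rw [Real.dist_eq, NNReal.coe_one, one_mul, abs_le]
      have h1 := hlip u v hu hv
      have h2 := hlip v u hv hu
      rw [dist_comm v u] at h2
      constructor <;> linarith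
    exact this.continuousOn
  set K : Set (ZMod 3 → ℝ) := Q ∩ F ⁻¹' Set.Iic (vt col c E + d * B) with hK
  have hKc : IsCompact K := by
    refine (isCompact_closedBall (0 : ZMod 3 → ℝ) (r / 2)).of_isClosed_subset
      (hcont.preimage_isClosed_of_isClosed Metric.isClosed_closedBall isClosed_Iic)
      Set.inter_subset_left
  have h0K : (fun _ => 0) ∈ K := ⟨(hQm _).2 h0r, hF0⟩
  have hsum : Continuous fun u : ZMod 3 → ℝ => ∑ i, u i := by fun_prop
  obtain ⟨u, huK, humax⟩ := hKc.exists_isMaxOn ⟨_, h0K⟩ hsum.continuousOn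
  have huQ := (hQm u).1 huK.1
  have huF : F u ≤ vt col c E + d * B := huK.2
  have hup : ∀ i, u i ≤ 2 * (d * B) := by
    intro i
    have h1 := hclose u huQ i
    linarith
  have hs0 : 0 ≤ ∑ i, u i := by
    have := humax h0K
    simpa using this
  have hlow' : ∀ i, -(4 * (d * B)) ≤ u i := by
    intro i
    have e3 : ∑ i, u i = u 0 + u 1 + u 2 := Fin.sum_univ_three u
    rw [e3] at hs0
    have h0 := hup 0
    have h1 := hup 1
    have h2 := hup 2
    fin_cases i
    · show -(4 * (d * B)) ≤ u 0; linarith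
    · show -(4 * (d * B)) ≤ u 1; linarith
    · show -(4 * (d * B)) ≤ u 2; linarith
  obtain ⟨δ', hδ', hgap⟩ := exists_gap c.S (H u) (vt col c (H u))
  obtain ⟨M, hM⟩ := (hH1 u huQ).valid
  refine ⟨H u, hH1 u huQ, ?_, ?_⟩
  · intro x hx hc
    have h1 := abs_le.1 (hEdE x hx)
    have h2 := hup (lab x)
    have h3 := hlow' (lab x)
    rw [hH2 u huQ x hx hc, abs_le]
    constructor <;> linarith [h1.1, h1.2]
  · intro i
    obtain ⟨ε, hε, hrb⟩ := hH1 u huQ
    have hpos : 0 < r / 2 - 4 * (d * B) := by linarith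
    refine ⟨min (min (δ' / 2) (ε / 2)) ((r / 2 - 4 * (d * B)) / 2), by positivity, ?_⟩
    intro s hs hs'
    have s1 : s < δ' := by
      have := hs'.trans ((min_le_left _ _).trans (min_le_left _ _)); linarith
    have s2 : s ≤ ε := by
      have := hs'.trans ((min_le_left _ _).trans (min_le_right _ _)); linarith
    have s3 : s ≤ r / 2 - 4 * (d * B) := by
      have := hs'.trans (min_le_right _ _); linarith
    obtain ⟨M2, hM2⟩ : ∃ M, c.Valid (fun x => H u x +
        if col x = true ∧ lab x = i then s else 0) M := by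
      refine hrb _ fun x _ => ?_
      split_ifs
      · rw [show H u x + s - H u x = s by ring, abs_of_nonneg hs]
        exact s2
      · rw [show H u x + 0 - H u x = 0 by ring, abs_zero]
        exact hε.le
    rcases hs.eq_or_lt with rfl | hspos
    · have : (fun x => H u x + if col x = true ∧ lab x = i then (0 : ℝ) else 0) = H u := by
        funext x; split_ifs <;> ring
      rw [this, add_zero]
    · -- the raised value is larger
      have hgt : vt col c (H u) <
          vt col c (fun x => H u x + if col x = true ∧ lab x = i then s else 0) := by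
        by_contra hcon
        rw [not_lt] at hcon
        have hmQ : ∀ j, |(fun j => u j + ee i s j) j| ≤ r / 2 := by
          intro j
          have h1 := hup j
          have h2 := hlow' j
          simp only [ee]
          rw [abs_le]
          split_ifs <;> constructor <;> linarith
        have hmem : (fun j => u j + ee i s j) ∈ K := by
          refine ⟨(hQm _).2 hmQ, ?_⟩
          show vt col c (H (fun j => u j + ee i s j)) ≤ _
          obtain ⟨M3, hM3⟩ := (hH1 _ hmQ).valid
          have e : vt col c (H (fun j => u j + ee i s j)) =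
              vt col c (fun x => H u x + if col x = true ∧ lab x = i then s else 0) := by
            refine vt_indep hg hcol hM3 hM2 fun x hx hc => ?_
            rw [hH2 _ hmQ x hx hc, hH2 u huQ x hx hc]
            unfold ee
            by_cases h : lab x = i
            · rw [if_pos h, if_pos ⟨hc, h⟩]; ring
            · rw [if_neg h, if_neg (fun h' => h h'.2)]; ring
          rw [e]
          exact hcon.trans huF
        have h1 := humax hmem
        have h2 : ∑ j, (u j + ee i s j) = ∑ j, u j + s := by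
          rw [Finset.sum_add_distrib]
          congr 1
          unfold ee
          rw [Finset.sum_ite_eq' Finset.univ i]
          simp
        have h3 : ∑ j, (u j + ee i s j) ≤ ∑ j, u j := h1
        linarith
      -- hence larger by `s`
      have h2 : vt col c (fun x => H u x + if col x = true ∧ lab x = i then s else 0) ≤
          vt col c (H u) + s := by
        refine vt_lip hg hcol hM hM2 fun x _ => ?_
        show H u x + (if col x = true ∧ lab x = i then s else 0) ≤ H u x + s
        split_ifs <;> linarith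
      obtain ⟨p, hp, hc, he⟩ := vt_mem hg hcol hM2
      by_cases hl : col p = true ∧ lab p = i
      · rw [if_pos hl] at he
        have := hgap p hp (by rw [abs_lt]; constructor <;> linarith)
        rw [he, this]
      · rw [if_neg hl, add_zero] at he
        have := hgap p hp (by rw [abs_lt]; constructor <;> linarith)
        rw [he, this] at hgt
        exact absurd hgt (lt_irrefl _)

/-- **(F)** in the form of note 13252: three valid phases, prescribed at the coloured points. -/
theorem exists_rob_or3 {col : W → Bool} {c : Cfg W} {E : W → ℝ} {M0 h : ℝ} {lab : W → ZMod 3}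
    {F : ZMod 3 → W → ℝ} (hg : c.Good) (hcol : ColOK col c) (hv0 : c.Valid E M0) (hh : 0 < h)
    (hF : ∀ i, ∃ M, c.Valid (F i) M)
    (hA : ∀ i, ∀ x ∈ c.S, col x = true → F i x = E x + if lab x = i then h else 0)
    (hor : ∀ i, vt col c (F i) = vt col c E + h) :
    ∀ δ : ℝ, 0 < δ → ∃ E' : W → ℝ, Rob c E' ∧ (∀ x ∈ c.S, col x = true → |E' x - E x| ≤ δ) ∧
      ∀ i, ∃ s0 : ℝ, 0 < s0 ∧ ∀ s, 0 ≤ s → s ≤ s0 →
        vt col c (fun x => E' x + if col x = true ∧ lab x = i then s else 0) =
          vt col c E' + s := by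
  classical
  choose MF hMF using hF
  refine exists_rob_or_gen (r := h / 4) hg hcol hv0 (by positivity) ?_ ?_
  · -- convex combinations
    intro u hu
    set m : ℝ := min (u 0) (min (u 1) (u 2)) with hm
    have m0 : m ≤ u 0 := min_le_left _ _
    have m1 : m ≤ u 1 := (min_le_right _ _).trans (min_le_left _ _)
    have m2 : m ≤ u 2 := (min_le_right _ _).trans (min_le_right _ _)
    have hsum : (u 0 - m) + (u 1 - m) + (u 2 - m) ≤ h := by
      have a0 := abs_le.1 (hu 0)
      have a1 := abs_le.1 (hu 1)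
      have a2 := abs_le.1 (hu 2)
      rcases min_choice (u 0) (min (u 1) (u 2)) with h1 | h1
      · rw [← hm] at h1; linarith [a0.1, a0.2, a1.1, a1.2, a2.1, a2.2]
      · rw [← hm] at h1
        rcases min_choice (u 1) (u 2) with h2 | h2 <;> rw [h2] at h1 <;>
          linarith [a0.1, a0.2, a1.1, a1.2, a2.1, a2.2]
    set a : ℝ := 1 - ((u 0 - m) + (u 1 - m) + (u 2 - m)) / h with ha
    have ha0 : 0 ≤ a := by
      rw [ha, sub_nonneg, div_le_one hh]; exact hsum
    have b0 : 0 ≤ (u 0 - m) / h := div_nonneg (by linarith) hh.le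
    have b1 : 0 ≤ (u 1 - m) / h := div_nonneg (by linarith) hh.le
    have b2 : 0 ≤ (u 2 - m) / h := div_nonneg (by linarith) hh.le
    have hV := valid_add m (valid_sum2 (valid_sum2 (valid_sum2 (valid_smul hv0 ha0)
      (valid_smul (hMF 0) b0)) (valid_smul (hMF 1) b1)) (valid_smul (hMF 2) b2))
    refine ⟨_, _, hV, ?_⟩
    intro x hx hc
    show a * E x + (u 0 - m) / h * F 0 x + (u 1 - m) / h * F 1 x + (u 2 - m) / h * F 2 x + m = _
    rw [hA 0 x hx hc, hA 1 x hx hc, hA 2 x hx hc, ha]
    have hne : h ≠ 0 := hh.ne'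
    generalize lab x = l
    have hl : l = 0 ∨ l = 1 ∨ l = 2 := by
      revert l; decide
    have n01 : (0 : ZMod 3) ≠ 1 := by decide
    have n02 : (0 : ZMod 3) ≠ 2 := by decide
    have n12 : (1 : ZMod 3) ≠ 2 := by decide
    rcases hl with rfl | rfl | rfl
    · rw [if_pos rfl, if_neg n01, if_neg n02]; field_simp; ring
    · rw [if_neg n01.symm, if_pos rfl, if_neg n12]; field_simp; ring
    · rw [if_neg n02.symm, if_neg n12.symm, if_pos rfl]; field_simp; ring
  · intro u hu G M hG hAG i
    have hui := abs_le.1 (hu i)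
    set τ : ℝ := u i + h / 4 with hτ
    have t0 : 0 ≤ τ / h := div_nonneg (by linarith [hui.1]) hh.le
    have t1 : τ / h ≤ 1 := by rw [div_le_one hh]; linarith [hui.2]
    have hVs := valid_sgm t0 t1 hv0 (hMF i)
    have hval : ∀ x ∈ c.S, col x = true →
        sgm E (F i) (τ / h) x = E x + if lab x = i then τ else 0 := by
      intro x hx hc
      unfold sgm
      rw [hA i x hx hc]
      have hne : h ≠ 0 := hh.ne'
      split_ifs
      · field_simp; ring
      · ring
    have h1 : vt col c (F i) ≤ vt col c (sgm E (F i) (τ / h)) + (h - τ) := by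
      refine vt_lipc hg hcol hVs (hMF i) fun x hx hc => ?_
      rw [hval x hx hc, hA i x hx hc]
      split_ifs <;> linarith [hui.2]
    have h2 : vt col c (sgm E (F i) (τ / h)) ≤ vt col c G + h / 4 := by
      refine vt_lipc hg hcol hG hVs fun x hx hc => ?_
      rw [hval x hx hc, hAG x hx hc]
      split_ifs with h3
      · rw [h3]; linarith
      · have := abs_le.1 (hu (lab x)); linarith [this.1]
    rw [hor i] at h1
    linarith

end Vale.Agent.P040.H906
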