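import Vale.Agent.P040.H906.TriF2

/-!
# The formal end for phases prescribed only at the coloured points (helper906)
-/

set_option linter.unusedSectionVars false
set_option linter.unusedVariables false

namespace Vale.Agent.P040.H906

open P040H251 H587

variable {W : Type*} [LinearOrder W]

/-- the centre of two opposite phases -/
theorem centre {col : W → Bool} {c : Cfg W} {E : W → ℝ} {lab : W → ZMod 3} {h M M' : ℝ}
    {F G : W → ℝ} {i : ZMod 3} (hF : c.Valid F M) (hG : c.Valid G M')
    (hAp : ∀ x ∈ c.S, col x = true → F x = E x + if lab x = i then h else 0)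
    (hAm : ∀ x ∈ c.S, col x = true → G x = E x - if lab x = i then h else 0) :
    (∃ M0, c.Valid (sgm F G (1 / 2)) M0) ∧
      ∀ x ∈ c.S, col x = true → sgm F G (1 / 2) x = E x := by
  refine ⟨⟨_, valid_sgm (by norm_num) (by norm_num) hF hG⟩, fun x hx hc => ?_⟩
  unfold sgm
  rw [hAp x hx hc, hAm x hx hc]
  split_ifs <;> ring

/-- **The end**, coloured form: without a tripod the sum of the three differences is `≤ 2 h`.
`E₁` is any valid phase equal to the centre `E` at the coloured points. -/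
theorem hex_of_no_tripod3 {col : W → Bool} {c : Cfg W} {E E₁ : W → ℝ} {lab : W → ZMod 3}
    {κ h M₁ : ℝ} {Ep Em : ZMod 3 → W → ℝ}
    (hg : c.Good) (hcol : ColOK col c) (hh : 0 < h)
    (hEp : ∀ i, ∃ M, c.Valid (Ep i) M) (hEm : ∀ i, ∃ M, c.Valid (Em i) M)
    (hAp : ∀ i, ∀ x ∈ c.S, col x = true → Ep i x = E x + if lab x = i then h else 0)
    (hAm : ∀ i, ∀ x ∈ c.S, col x = true → Em i x = E x - if lab x = i then h else 0)
    (hlat : ∀ p ∈ c.S, col p = true → ∃ n : ℤ, E p = κ + n * h)
    (hv₁ : c.Valid E₁ M₁) (hE₁ : ∀ x ∈ c.S, col x = true → E₁ x = E x)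
    (hor : ¬ ∀ i, vt col c (Ep i) = vt col c E₁ + h)
    (hand : ¬ ∀ i, vt col c (Em i) = vt col c E₁ - h) :
    ∑ i, (vt col c (Ep i) - vt col c (Em i)) ≤ 2 * h := by
  have hne : h ≠ 0 := hh.ne'
  obtain ⟨p0, hp0, hc0, he0⟩ := vt_mem hg hcol hv₁
  rw [hE₁ p0 hp0 hc0] at he0
  obtain ⟨n0, hn0⟩ := hlat p0 hp0 hc0
  have hA : ∀ i, vt col c (Ep i) = vt col c E₁ ∨ vt col c (Ep i) = vt col c E₁ + h := by
    intro i
    obtain ⟨M, hv⟩ := hEp i
    obtain ⟨p, hp, hc, he⟩ := vt_mem hg hcol hv
    obtain ⟨n, hn⟩ := hlat p hp hc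
    have h1 : vt col c E₁ ≤ vt col c (Ep i) := by
      refine vt_monoc hg hcol hv₁ hv fun x hx hc => ?_
      rw [hE₁ x hx hc, hAp i x hx hc]; split_ifs <;> linarith
    have h2 : vt col c (Ep i) ≤ vt col c E₁ + h := by
      refine vt_lipc hg hcol hv₁ hv fun x hx hc => ?_
      rw [hE₁ x hx hc, hAp i x hx hc]; split_ifs <;> linarith
    obtain ⟨k, hk⟩ : ∃ k : ℤ, vt col c (Ep i) - vt col c E₁ = k * h := by
      rw [he, he0, hn0, hAp i p hp hc]
      split_ifs
      · exact ⟨n - n0 + 1, by rw [hn]; push_cast; ring⟩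
      · exact ⟨n - n0, by rw [hn]; push_cast; ring⟩
    have k1 : (0 : ℝ) ≤ k := by
      by_contra hcon
      rw [not_le] at hcon
      have := mul_neg_of_neg_of_pos hcon hh
      linarith
    have k2 : (k : ℝ) ≤ 1 := by
      by_contra hcon
      rw [not_le] at hcon
      have := mul_lt_mul_of_pos_right hcon hh
      linarith
    have k1' : (0 : ℤ) ≤ k := by exact_mod_cast k1
    have k2' : k ≤ 1 := by exact_mod_cast k2
    rcases (by omega : k = 0 ∨ k = 1) with rfl | rfl
    · left; push_cast at hk; linarith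
    · right; push_cast at hk; linarith
  have hB : ∀ i, vt col c (Em i) = vt col c E₁ ∨ vt col c (Em i) = vt col c E₁ - h := by
    intro i
    obtain ⟨M, hv⟩ := hEm i
    obtain ⟨p, hp, hc, he⟩ := vt_mem hg hcol hv
    obtain ⟨n, hn⟩ := hlat p hp hc
    have h1 : vt col c (Em i) ≤ vt col c E₁ := by
      refine vt_monoc hg hcol hv hv₁ fun x hx hc => ?_
      rw [hE₁ x hx hc, hAm i x hx hc]; split_ifs <;> linarith
    have h2 : vt col c E₁ ≤ vt col c (Em i) + h := by
      refine vt_lipc hg hcol hv hv₁ fun x hx hc => ?_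
      rw [hE₁ x hx hc, hAm i x hx hc]; split_ifs <;> linarith
    obtain ⟨k, hk⟩ : ∃ k : ℤ, vt col c E₁ - vt col c (Em i) = k * h := by
      rw [he, he0, hn0, hAm i p hp hc]
      split_ifs
      · exact ⟨n0 - n + 1, by rw [hn]; push_cast; ring⟩
      · exact ⟨n0 - n, by rw [hn]; push_cast; ring⟩
    have k1 : (0 : ℝ) ≤ k := by
      by_contra hcon
      rw [not_le] at hcon
      have := mul_neg_of_neg_of_pos hcon hh
      linarith
    have k2 : (k : ℝ) ≤ 1 := by
      by_contra hcon
      rw [not_le] at hcon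
      have := mul_lt_mul_of_pos_right hcon hh
      linarith
    have k1' : (0 : ℤ) ≤ k := by exact_mod_cast k1
    have k2' : k ≤ 1 := by exact_mod_cast k2
    rcases (by omega : k = 0 ∨ k = 1) with rfl | rfl
    · left; push_cast at hk; linarith
    · right; push_cast at hk; linarith
  have hAB : ∀ i j, i ≠ j → vt col c (Ep i) = vt col c E₁ + h →
      vt col c (Em j) = vt col c E₁ - h → False := by
    intro i j hij h1 h2
    obtain ⟨M1, hv1⟩ := hEp i
    obtain ⟨M2, hv2⟩ := hEm j
    have h4 : vt col c (Ep i) ≤ vt col c (Em j) + h := by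
      refine vt_lipc hg hcol hv2 hv1 fun x hx hc => ?_
      rw [hAp i x hx hc, hAm j x hx hc]
      split_ifs with h5 h6
      · exact absurd (h5.symm.trans h6) hij
      · linarith
      · linarith
      · linarith
    rw [h1, h2] at h4
    linarith
  have e3 : ∀ F : ZMod 3 → ℝ, ∑ i, F i = F 0 + F 1 + F 2 := by
    intro F
    exact Fin.sum_univ_three F
  rw [e3]
  have hall : ∀ P : ZMod 3 → Prop, (∀ i, P i) ↔ P 0 ∧ P 1 ∧ P 2 := by
    intro P
    constructor
    · intro h; exact ⟨h 0, h 1, h 2⟩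
    · rintro ⟨h0, h1, h2⟩ i
      fin_cases i
      · exact h0
      · exact h1
      · exact h2
  rw [hall] at hor hand
  have n01 : (0 : ZMod 3) ≠ 1 := by decide
  have n02 : (0 : ZMod 3) ≠ 2 := by decide
  have n12 : (1 : ZMod 3) ≠ 2 := by decide
  have q01 := hAB 0 1 n01
  have q10 := hAB 1 0 n01.symm
  have q02 := hAB 0 2 n02
  have q20 := hAB 2 0 n02.symm
  have q12 := hAB 1 2 n12
  have q21 := hAB 2 1 n12.symm
  have a0 := hA 0
  have a1 := hA 1
  have a2 := hA 2
  have b0 := hB 0
  have b1 := hB 1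
  have b2 := hB 2
  generalize vt col c (Ep 0) = A0 at *
  generalize vt col c (Ep 1) = A1 at *
  generalize vt col c (Ep 2) = A2 at *
  generalize vt col c (Em 0) = B0 at *
  generalize vt col c (Em 1) = B1 at *
  generalize vt col c (Em 2) = B2 at *
  generalize vt col c E₁ = v at *
  rcases a0 with a0 | a0 <;> rcases a1 with a1 | a1 <;> rcases a2 with a2 | a2 <;>
    rcases b0 with b0 | b0 <;> rcases b1 with b1 | b1 <;> rcases b2 with b2 | b2 <;>
    first
      | linarith
      | exact (q01 a0 b1).elim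
      | exact (q10 a1 b0).elim
      | exact (q02 a0 b2).elim
      | exact (q20 a2 b0).elim
      | exact (q12 a1 b2).elim
      | exact (q21 a2 b1).elim
      | exact (hor ⟨a0, a1, a2⟩).elim
      | exact (hand ⟨b0, b1, b2⟩).elim

end Vale.Agent.P040.H906
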